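import Vale.Agent.P157F.Defs
import Vale.Agent.P157.Low.Borel

/-!
P157: the value of one pattern is stable in the mean distance of potentials, and bounded Borel
potentials are near flat smooth ones.
-/

namespace Vale.Agent.P157F

open MeasureTheory ProbabilityTheory Filter Vale.Agent.P157 Vale.Agent.P157.Low Vale.Agent.P166F
open scoped Topology

variable {k : ℕ} {f g : ℝ → ℝ} {B : ℝ}

/-- Bounded measurable functions are integrable along every Gaussian shift. -/
lemma integrable_shift {G : ℝ → ℝ} (hG : Measurable G) (hb : ∀ x, |G x| ≤ B) (y s : ℝ) :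
    Integrable (fun z => G (y + s * z)) (gaussianReal 0 1) :=
  Integrable.of_bound (hG.comp (by fun_prop)).aestronglyMeasurable B
    (Eventually.of_forall fun z => (Real.norm_eq_abs _).le.trans (hb _))

lemma measurable_heat {G : ℝ → ℝ} (hG : Measurable G) (τ : ℝ) : Measurable (heat G τ) := by
  have h : Measurable fun p : ℝ × ℝ => G (p.1 + Real.sqrt τ * p.2) := hG.comp (by fun_prop)
  exact (h.stronglyMeasurable.integral_prod_right' (ν := gaussianReal 0 1)).measurable

lemma integrable_exp_shift {U : ℝ → ℝ} (hU : Measurable U) (hb : ∀ x, |U x| ≤ B) (m y s : ℝ) :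
    Integrable (fun z => Real.exp (m * U (y + s * z))) (gaussianReal 0 1) :=
  integrable_shift (B := Real.exp (|m| * B)) (G := fun x => Real.exp (m * U x)) (by fun_prop)
    (fun x => by
      rw [Real.abs_exp, Real.exp_le_exp]
      exact ((le_abs_self _).trans_eq (abs_mul _ _)).trans
        (mul_le_mul_of_nonneg_left (hb x) (abs_nonneg m))) y s

/-- A log-moment of a function in `[-B, B]` is in `[-B, B]`. -/
lemma abs_lexp_le {U : ℝ → ℝ} (hU : Measurable U) (hb : ∀ x, |U x| ≤ B) {m : ℝ} (hm : 0 < m)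
    (τ y : ℝ) : |Real.log (heat (fun x => Real.exp (m * U x)) τ y) / m| ≤ B := by
  have hi := integrable_exp_shift hU hb m y (Real.sqrt τ)
  have h1 : Real.exp (-(m * B)) ≤ heat (fun x => Real.exp (m * U x)) τ y := by
    refine le_trans (le_of_eq ?_) (integral_mono (integrable_const (Real.exp (-(m * B)))) hi
      fun z => Real.exp_le_exp.2 ?_)
    · simp
    · rw [← mul_neg]; exact mul_le_mul_of_nonneg_left (abs_le.1 (hb _)).1 hm.le
  have h2 : heat (fun x => Real.exp (m * U x)) τ y ≤ Real.exp (m * B) := by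
    refine (integral_mono hi (integrable_const (Real.exp (m * B)))
      fun z => Real.exp_le_exp.2 (mul_le_mul_of_nonneg_left (abs_le.1 (hb _)).2 hm.le)).trans
      (le_of_eq ?_)
    simp
  have hp := (Real.exp_pos _).trans_le h1
  rw [abs_le, le_div_iff₀ hm, div_le_iff₀ hm, Real.le_log_iff_exp_le hp, Real.log_le_iff_le_exp hp,
    neg_mul, mul_comm B m]
  exact ⟨h1, h2⟩

/-- The nested potentials of a bounded potential are measurable with the same bound. -/
lemma potUp_bdd {m d : Fin (k + 1) → ℝ} (hm : ∀ j, 0 ≤ m j) {u : ℝ → ℝ} (hu : Measurable u)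
    (hb : ∀ x, |u x| ≤ B) : ∀ n, Measurable (potUp m d u n) ∧ ∀ y, |potUp m d u n y| ≤ B
  | 0 => by simpa [potUp] using And.intro hu hb
  | n + 1 => by
    obtain ⟨h1, h2⟩ := potUp_bdd hm hu hb n
    by_cases hn : n ≤ k
    · simp only [potUp, hn, dite_true]
      by_cases h0 : m ⟨k - n, by omega⟩ = 0
      · simp only [h0, if_true]
        exact ⟨measurable_heat h1 _, fun y => abs_heat_le_bdd h2 _ y⟩
      · simp only [h0, if_false]
        exact ⟨((measurable_heat (h1.const_mul _).exp _).log).div_const _,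
          fun y => abs_lexp_le h1 h2 (lt_of_le_of_ne (hm _) (Ne.symm h0)) _ y⟩
    · simpa only [potUp, hn, dite_false] using And.intro h1 h2

/-- The tangent of a log-moment at the larger function. -/
lemma log_int_sub_le {X Y : ℝ → ℝ} (hX : Measurable X) (hY : Measurable Y) {C : ℝ}
    (hXb : ∀ z, |X z| ≤ C) (hYb : ∀ z, |Y z| ≤ C) :
    Real.log (∫ z, Real.exp (X z) ∂gaussianReal 0 1) - Real.log (∫ z, Real.exp (Y z) ∂gaussianReal 0 1) ≤
      (∫ z, Real.exp (X z) * (X z - Y z) ∂gaussianReal 0 1) / ∫ z, Real.exp (X z) ∂gaussianReal 0 1 := by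
  have hi : ∀ {Z : ℝ → ℝ}, Measurable Z → (∀ z, |Z z| ≤ C) →
      Integrable (fun z => Real.exp (Z z)) (gaussianReal 0 1) ∧
        0 < ∫ z, Real.exp (Z z) ∂gaussianReal 0 1 := by
    intro Z hZ hb
    have h := integrable_exp_shift (U := Z) hZ hb 1 0 1
    simp only [one_mul, zero_add] at h
    exact ⟨h, integral_exp_pos h⟩
  obtain ⟨iX, pX⟩ := hi hX hXb
  obtain ⟨iY, pY⟩ := hi hY hYb
  set IX := ∫ z, Real.exp (X z) ∂gaussianReal 0 1
  set IY := ∫ z, Real.exp (Y z) ∂gaussianReal 0 1
  have iXY : Integrable (fun z => Real.exp (X z) * (X z - Y z)) (gaussianReal 0 1) :=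
    iX.mul_bdd (hX.sub hY).aestronglyMeasurable (c := 2 * C) (Eventually.of_forall fun z => by
      rw [Real.norm_eq_abs, two_mul]
      exact (abs_sub _ _).trans (add_le_add (hXb z) (hYb z)))
  set D := (∫ z, Real.exp (X z) * (X z - Y z) ∂gaussianReal 0 1) / IX with hD
  have hpt : ∀ z, Real.exp (-D) * (Real.exp (X z) * (1 + D) - Real.exp (X z) * (X z - Y z)) ≤
      Real.exp (Y z) := fun z => by
    have h := mul_le_mul_of_nonneg_left (Real.add_one_le_exp (-(X z - Y z) + D))
      (mul_pos (Real.exp_pos (-D)) (Real.exp_pos (X z))).le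
    refine le_trans (le_of_eq ?_) (h.trans (le_of_eq ?_))
    · ring
    · rw [← Real.exp_add, ← Real.exp_add]; ring_nf
  have h := integral_mono (((iX.mul_const (1 + D)).sub iXY).const_mul (Real.exp (-D))) iY hpt
  simp only [Pi.sub_apply] at h
  rw [integral_const_mul, integral_sub (iX.mul_const _) iXY, integral_mul_const] at h
  have e : ∫ z, Real.exp (X z) * (X z - Y z) ∂gaussianReal 0 1 = D * IX :=
    (div_mul_cancel₀ _ pX.ne').symm
  rw [e] at h
  have h' : Real.exp (-D) * IX ≤ IY := le_trans (le_of_eq (by ring)) h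
  have := Real.log_le_log (mul_pos (Real.exp_pos _) pX) h'
  rw [Real.log_mul (Real.exp_pos _).ne' pX.ne', Real.log_exp] at this
  linarith

/-- Successive Gaussian averages merge. -/
lemma heat_heat {G : ℝ → ℝ} (hG : Measurable G) (hb : ∀ x, |G x| ≤ B) {s t : ℝ} (hs : 0 ≤ s)
    (ht : 0 ≤ t) (y : ℝ) : heat (heat G s) t y = heat G (t + s) y := by
  have hsq : Real.sqrt t ^ 2 + Real.sqrt s ^ 2 = Real.sqrt (t + s) ^ 2 := by
    rw [Real.sq_sqrt hs, Real.sq_sqrt ht, Real.sq_sqrt (by linarith)]
  have h := (gauss_merge (H := fun x => G (y + x)) (hG.comp (by fun_prop)) hsq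
    (integrable_shift hG hb y _)).2
  simp only [heat, ← h, add_assoc]

/-- One Gaussian level of exponent `M`: the weighted tangent. -/
lemma lexp_tangent {U U' H : ℝ → ℝ} (hU : Measurable U) (hUb : ∀ x, |U x| ≤ B)
    (hU' : Measurable U') (hU'b : ∀ x, |U' x| ≤ B) (hH : Measurable H) {C : ℝ} (hHb : ∀ x, |H x| ≤ C)
    {M c : ℝ} (hM : 0 < M) (hle : ∀ x, U' x - U x ≤ c * Real.exp (-(M * U' x)) * H x) (τ y : ℝ) :
    Real.log (heat (fun x => Real.exp (M * U' x)) τ y) / M -
        Real.log (heat (fun x => Real.exp (M * U x)) τ y) / M ≤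
      c * Real.exp (-(M * (Real.log (heat (fun x => Real.exp (M * U' x)) τ y) / M))) * heat H τ y := by
  simp only [heat]
  set s := Real.sqrt τ
  have hsh : Measurable fun z => y + s * z := by fun_prop
  have hb : ∀ {V : ℝ → ℝ}, (∀ x, |V x| ≤ B) → ∀ z, |M * V (y + s * z)| ≤ M * B := fun hV z => by
    rw [abs_mul, abs_of_pos hM]; exact mul_le_mul_of_nonneg_left (hV _) hM.le
  have hj := log_int_sub_le ((hU'.comp hsh).const_mul M) ((hU.comp hsh).const_mul M) (hb hU'b) (hb hUb)
  simp only [Function.comp_apply] at hj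
  have iX := integrable_exp_shift hU' hU'b M y s
  have pX : 0 < ∫ z, Real.exp (M * U' (y + s * z)) ∂gaussianReal 0 1 := integral_exp_pos iX
  set IX := ∫ z, Real.exp (M * U' (y + s * z)) ∂gaussianReal 0 1
  have iH := integrable_shift hH hHb y s
  have iD : Integrable (fun z => Real.exp (M * U' (y + s * z)) * (M * U' (y + s * z) - M * U (y + s * z)))
      (gaussianReal 0 1) :=
    iX.mul_bdd (((hU'.comp hsh).const_mul M).sub ((hU.comp hsh).const_mul M)).aestronglyMeasurable
      (c := 2 * (M * B)) (Eventually.of_forall fun z => by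
        rw [Real.norm_eq_abs, two_mul]
        exact (abs_sub _ _).trans (add_le_add (hb hU'b z) (hb hUb z)))
  have hI := integral_mono iD (iH.const_mul (M * c)) fun z => by
    have h := mul_le_mul_of_nonneg_left (hle (y + s * z))
      (mul_pos (Real.exp_pos (M * U' (y + s * z))) hM).le
    refine le_trans (le_of_eq ?_) (h.trans (le_of_eq ?_))
    · ring
    · have : Real.exp (M * U' (y + s * z)) * Real.exp (-(M * U' (y + s * z))) = 1 := by
        rw [← Real.exp_add, add_neg_cancel, Real.exp_zero]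
      linear_combination M * c * H (y + s * z) * this
  rw [integral_const_mul] at hI
  rw [mul_div_cancel₀ _ hM.ne', Real.exp_neg, Real.exp_log pX, ← sub_div, div_le_iff₀ hM]
  refine hj.trans ((div_le_div_of_nonneg_right hI pX.le).trans (le_of_eq ?_))
  ring

lemma abs_topLog_le (hf : Pot f B) (p : Fin (k + 1) → ℝ) (y : ℝ) : |topLog f p y| ≤ B := by
  simpa [topLog, topW] using abs_lexp_le hf.meas hf.bound one_pos (1 - p (Fin.last k)) y

lemma measurable_topLog (hf : Pot f B) (p : Fin (k + 1) → ℝ) : Measurable (topLog f p) :=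
  (measurable_heat hf.meas.exp _).log

/-- The exponent converts at the cost `exp (B δ)`. -/
lemma convert_exp {a b U c h : ℝ} (hab : b ≤ a) (hU : |U| ≤ B) (hc : 0 ≤ c) (hh : 0 ≤ h) :
    c * Real.exp (-(a * U)) * h ≤ Real.exp (B * (a - b)) * c * Real.exp (-(b * U)) * h := by
  refine mul_le_mul_of_nonneg_right ?_ hh
  rw [mul_comm (Real.exp (B * (a - b))) c, mul_assoc c (Real.exp _) (Real.exp _), ← Real.exp_add]
  exact mul_le_mul_of_nonneg_left (Real.exp_le_exp.2 (by
    nlinarith [mul_le_mul_of_nonneg_left (abs_le.1 hU).1 (sub_nonneg.2 hab)])) hc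

/-- The one-sided comparison of the values. -/
lemma patVal_sub_le (hf : Pot f B) (hg : Pot g B) {m p : Fin (k + 1) → ℝ} (hm : Levels m)
    (hp : Path p) :
    patVal g m p - patVal f m p ≤ Real.exp (2 * B) * ∫ x, |f x - g x| ∂gaussianReal 0 1 := by
  have hm0 : ∀ j, 0 ≤ m j := fun j => hm.zero.symm.le.trans (hm.strict.monotone (Fin.zero_le j))
  set w : ℝ → ℝ := fun x => |f x - g x| with hw
  have hwm : Measurable w := (hf.meas.sub hg.meas).abs
  have hwb : ∀ x, |w x| ≤ 2 * B := fun x => by
    rw [hw, abs_abs, two_mul]; exact (abs_sub _ _).trans (add_le_add (hf.bound x) (hg.bound x))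
  have hh0 : ∀ τ y, 0 ≤ heat w τ y := fun τ y => integral_nonneg fun z => abs_nonneg _
  have hd0 : ∀ i, 0 ≤ incr p i := Low.incr_nonneg hp.mono (hp.nonneg 0)
  set U := fun n => potUp m (incr p) (topLog f p) n with hU
  set U' := fun n => potUp m (incr p) (topLog g p) n with hU'
  have bU := fun n => potUp_bdd hm0 (measurable_topLog hf p) (abs_topLog_le hf p) n (d := incr p)
  have bU' := fun n => potUp_bdd hm0 (measurable_topLog hg p) (abs_topLog_le hg p) n (d := incr p)
  have key : ∀ n (hn : n ≤ k), ∀ y, U' n y - U n y ≤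
      Real.exp (B * (2 - m ⟨k - n, by omega⟩)) * Real.exp (-(m ⟨k - n, by omega⟩ * U' n y)) *
        heat w (1 - p ⟨k - n, by omega⟩) y := by
    intro n
    induction n with
    | zero =>
      intro _ y
      have el : (⟨k - 0, by omega⟩ : Fin (k + 1)) = Fin.last k := Fin.ext (by simp)
      rw [el]
      have hle : ∀ x, g x - f x ≤ Real.exp B * Real.exp (-(1 * g x)) * w x := fun x => by
        have h1 : 1 ≤ Real.exp B * Real.exp (-(1 * g x)) := by
          rw [← Real.exp_add]; exact Real.one_le_exp (by linarith [(abs_le.1 (hg.bound x)).2])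
        exact ((le_abs_self _).trans_eq (abs_sub_comm _ _)).trans (le_mul_of_one_le_left (abs_nonneg _) h1)
      have h := lexp_tangent hf.meas hf.bound hg.meas hg.bound hwm hwb one_pos hle
        (1 - p (Fin.last k)) y
      simp only [one_mul, div_one] at h
      change topLog g p y - topLog f p y ≤ _
      refine h.trans (le_trans (le_of_eq ?_) ((convert_exp (hm.ltOne (Fin.last k)).le
        (abs_topLog_le hg p y) (Real.exp_pos B).le (hh0 (1 - p (Fin.last k)) y)).trans (le_of_eq ?_)))
      · simp [topLog, topW]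
      · rw [← Real.exp_add]
        have e : B * (1 - m (Fin.last k)) + B = B * (2 - m (Fin.last k)) := by ring
        rw [e]
        rfl
    | succ n ih =>
      intro hn y
      have hn' : n ≤ k := by omega
      set j : Fin (k + 1) := ⟨k - n, by omega⟩ with hj
      set i : Fin (k + 1) := ⟨k - (n + 1), by omega⟩ with hi
      have hij : i < j := Fin.mk_lt_mk.2 (by omega)
      have hMpos : 0 < m j := (hm0 i).trans_lt (hm.strict hij)
      have hincr : incr p j = p j - p i := by
        have hne : ¬((j : ℕ) = 0) := by simp only [hj]; omega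
        rw [incr, dif_neg hne]
        congr 2
      have h := lexp_tangent (bU n).1 (bU n).2 (bU' n).1 (bU' n).2 (measurable_heat hwm (1 - p j))
        (fun x => abs_heat_le_bdd hwb _ x) hMpos (ih hn') (incr p j) y
      have es : U (n + 1) y = Real.log (heat (fun x => Real.exp (m j * U n x)) (incr p j) y) / m j := by
        simp only [hU, potUp, hn', dite_true, ← hj, hMpos.ne', if_false]
      have es' : U' (n + 1) y = Real.log (heat (fun x => Real.exp (m j * U' n x)) (incr p j) y) / m j := by
        simp only [hU', potUp, hn', dite_true, ← hj, hMpos.ne', if_false]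
      rw [es, es']
      refine h.trans ?_
      rw [← es', heat_heat hwm hwb (by linarith [hp.ltOne j]) (hd0 j), hincr,
        show p j - p i + (1 - p j) = 1 - p i by ring]
      refine (convert_exp (hm.strict hij).le ((bU' (n + 1)).2 y) (Real.exp_pos _).le (hh0 _ y)).trans
        (le_of_eq ?_)
      rw [← Real.exp_add, show B * (m j - m i) + B * (2 - m ⟨k - n, by omega⟩) = B * (2 - m i) by
        rw [← hj]; ring]
  have e0 : (⟨k - k, by omega⟩ : Fin (k + 1)) = 0 := Fin.ext (by simp)
  have hk := key k le_rfl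
  simp only [e0, hm.zero, zero_mul, neg_zero, Real.exp_zero, mul_one, sub_zero] at hk
  have i1 := integrable_shift (bU' k).1 (bU' k).2 0 (Real.sqrt (incr p 0))
  have i2 := integrable_shift (bU k).1 (bU k).2 0 (Real.sqrt (incr p 0))
  have iH := integrable_shift (measurable_heat hwm (1 - p 0)) (fun x => abs_heat_le_bdd hwb _ x) 0
    (Real.sqrt (incr p 0))
  have eA : ∀ u : ℝ → ℝ, potUp m (incr p) u (k + 1) 0 = heat (potUp m (incr p) u k) (incr p 0) 0 := by
    intro u
    simp only [potUp, le_refl, dite_true, e0, hm.zero, if_true]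
  rw [patVal, patVal, eA, eA]
  simp only [heat]
  rw [← integral_sub i1 i2]
  refine (integral_mono (i1.sub i2) (iH.const_mul (Real.exp (B * 2))) fun z => hk _).trans (le_of_eq ?_)
  have hh : ∫ z, heat w (1 - p 0) (0 + Real.sqrt (incr p 0) * z) ∂gaussianReal 0 1 =
      ∫ x, w x ∂gaussianReal 0 1 := by
    change heat (heat w (1 - p 0)) (incr p 0) 0 = _
    rw [heat_heat hwm hwb (by linarith [hp.ltOne 0]) (hd0 0), Low.incr_zero, add_sub_cancel]
    simp [heat]
  rw [integral_const_mul, hh, mul_comm B 2]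

/-- The value of one pattern moves by at most the mean distance of the potentials. -/
theorem abs_patVal_stable (hf : Pot f B) (hg : Pot g B) {m p : Fin (k + 1) → ℝ} (hm : Levels m)
    (hp : Path p) :
    |patVal f m p - patVal g m p| ≤ Real.exp (2 * B) * ∫ x, |f x - g x| ∂gaussianReal 0 1 := by
  rw [abs_le]
  refine ⟨by linarith [patVal_sub_le hf hg hm hp], ?_⟩
  have h := patVal_sub_le hg hf hm hp
  simp only [abs_sub_comm (g _)] at h
  linarith

/-- Smoothing a potential with compact support gives a flat potential. -/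
lemma sft_fsm_of_support (hf : Pot f B) {R : ℝ} (hR : ∀ x, R < |x| → f x = 0) {e : ℝ} (he : 0 < e) :
    Sft (fsm f e) := by
  refine ⟨smf_fsm hf.meas hf.bound he, ?_⟩
  set W : ℝ → ℝ := fun x => Real.exp (f x) with hW
  set φ : ℝ → ℝ := fun x => W x - 1 with hφ
  set σ := Real.sqrt e
  set a := Real.sqrt (1 - e)
  have hσ : σ ≠ 0 := Real.sqrt_ne_zero'.2 he
  have hWb : ∀ x, |W x| ≤ Real.exp B := fun x => (exp_f_bdd hf.bound x).2
  set C := Real.exp B + 1 with hC
  have hφb : ∀ x, |φ x| ≤ C := fun x => (abs_sub _ _).trans (by rw [abs_one]; linarith [hWb x])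
  have hφm : Measurable φ := hf.meas.exp.sub_const 1
  have hC0 : 0 ≤ C := (abs_nonneg _).trans (hφb 0)
  have hsupp : ∀ u, |u * φ u| ≤ |R| * C := fun u => by
    rcases le_or_gt |u| R with h | h
    · rw [abs_mul]
      exact mul_le_mul (h.trans (le_abs_self R)) (hφb u) (abs_nonneg _) (abs_nonneg R)
    · simp [hφ, hW, hR u h, mul_nonneg (abs_nonneg R) hC0]
  -- the slope of the smoothed weight decays like the inverse of the argument
  have i1 : Integrable (fun z : ℝ => |z|) (gaussianReal 0 1) :=
    (IsGaussian.integrable_id (μ := gaussianReal 0 1)).abs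
  have i2 : Integrable (fun z : ℝ => z * z) (gaussianReal 0 1) := by
    refine (integrable_eval_gauss (Polynomial.X * Polynomial.X)).congr (Eventually.of_forall fun z => ?_)
    simp only [Polynomial.eval_mul, Polynomial.eval_X]
  set K := |R| * C * (∫ z, |z| ∂gaussianReal 0 1) + |σ| * C * ∫ z, z * z ∂gaussianReal 0 1
  have hXbd : ∀ x, |x * gsm W σ Polynomial.X x| ≤ K := fun x => by
    have hz : ∫ z : ℝ, z ∂gaussianReal 0 1 = 0 := integral_id_gaussianReal
    have iW : Integrable (fun z => z * W (x + σ * z)) (gaussianReal 0 1) := by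
      simpa [mul_comm] using integrable_gsm hf.meas.exp hWb σ x Polynomial.X
    have e1 : gsm W σ Polynomial.X x = ∫ z, z * φ (x + σ * z) ∂gaussianReal 0 1 := by
      simp only [hφ, mul_sub, mul_one]
      rw [integral_sub iW (g := fun z : ℝ => z) (IsGaussian.integrable_id (μ := gaussianReal 0 1)), gsm_X,
        hz, sub_zero]
    rw [e1, ← integral_const_mul]
    refine (norm_integral_le_of_norm_le (f := fun z => x * (z * φ (x + σ * z)))
      ((i1.const_mul (|R| * C)).add (i2.const_mul (|σ| * C)))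
      (Eventually.of_forall fun z => ?_)).trans (le_of_eq ?_)
    · simp only [Real.norm_eq_abs, Pi.add_apply]
      rw [show x * (z * φ (x + σ * z)) = z * ((x + σ * z) * φ (x + σ * z)) - σ * (z * z) * φ (x + σ * z)
        by ring]
      refine (abs_sub _ _).trans (add_le_add ?_ ?_)
      · rw [abs_mul, mul_comm (|R| * C)]
        exact mul_le_mul_of_nonneg_left (hsupp _) (abs_nonneg z)
      · rw [abs_mul, abs_mul, abs_mul, ← abs_mul z z, abs_mul_self, mul_assoc |σ| C, mul_comm C (z * z),
          ← mul_assoc]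
        rw [mul_assoc |σ| z z, ← mul_assoc |σ| (z * z) C]
        exact mul_le_mul_of_nonneg_left (hφb _) (mul_nonneg (abs_nonneg σ) (mul_self_nonneg z))
    · rw [integral_add' (i1.const_mul _) (i2.const_mul _), integral_const_mul, integral_const_mul]
  refine ⟨|σ⁻¹| * K / Real.exp (-B), fun y => ?_⟩
  have hG := (hasDerivAt_gsm_one hf.meas.exp hWb hσ (a * y)).comp y ((hasDerivAt_id y).const_mul a)
  have hpos : 0 < gsm W σ 1 (a * y) := (Real.exp_pos _).trans_le (gsm_exp_mem hf.meas hf.bound _ _).1
  have hd : HasDerivAt (fsm f e) (σ⁻¹ * gsm W σ Polynomial.X (a * y) * (a * 1) / gsm W σ 1 (a * y)) y :=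
    hG.log hpos.ne'
  rw [hd.deriv, show y * (σ⁻¹ * gsm W σ Polynomial.X (a * y) * (a * 1) / gsm W σ 1 (a * y)) =
    σ⁻¹ * ((a * y) * gsm W σ Polynomial.X (a * y)) / gsm W σ 1 (a * y) by ring, abs_div, abs_mul,
    abs_of_pos hpos]
  have hK : 0 ≤ K := (abs_nonneg _).trans (hXbd 0)
  exact div_le_div₀ (mul_nonneg (abs_nonneg _) hK) (mul_le_mul_of_nonneg_left (hXbd _) (abs_nonneg _))
    (Real.exp_pos _) (gsm_exp_mem hf.meas hf.bound _ _).1

/-- Flat smooth potentials are dense in the mean. -/
theorem exists_sft (hf : Pot f B) {δ : ℝ} (hδ : 0 < δ) :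
    ∃ g, Sft g ∧ Pot g B ∧ ∫ x, |f x - g x| ∂gaussianReal 0 1 ≤ δ := by
  set cut : ℕ → ℝ → ℝ := fun n => Set.indicator {x | |x| ≤ (n : ℝ)} f with hcut
  have hms : ∀ n : ℕ, MeasurableSet {x : ℝ | |x| ≤ (n : ℝ)} := fun n =>
    measurableSet_le measurable_id.abs measurable_const
  have hP : ∀ n, Pot (cut n) B := fun n => ⟨hf.meas.indicator (hms n), fun x => by
    rw [hcut]; dsimp only
    by_cases h : |x| ≤ (n : ℝ)
    · rw [Set.indicator_of_mem (show x ∈ {x : ℝ | |x| ≤ (n : ℝ)} from h)]; exact hf.bound x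
    · rw [Set.indicator_of_notMem (show x ∉ {x : ℝ | |x| ≤ (n : ℝ)} from h), abs_zero]; exact hf.nonneg⟩
  have hlim : Tendsto (fun n => ∫ x, |f x - cut n x| ∂gaussianReal 0 1) atTop (𝓝 0) := by
    have h := tendsto_integral_of_dominated_convergence (μ := gaussianReal 0 1) (fun _ => 2 * B)
      (F := fun n x => |f x - cut n x|) (f := fun _ => 0)
      (fun n => (hf.meas.sub (hP n).meas).abs.aestronglyMeasurable) (integrable_const _)
      (fun n => Eventually.of_forall fun x => by
        rw [Real.norm_eq_abs, abs_abs, two_mul]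
        exact (abs_sub _ _).trans (add_le_add (hf.bound x) ((hP n).bound x)))
      (Eventually.of_forall fun x => tendsto_const_nhds.congr' <| by
        filter_upwards [eventually_ge_atTop ⌈|x|⌉₊] with n hn
        have hx : x ∈ {x : ℝ | |x| ≤ (n : ℝ)} := (Nat.le_ceil |x|).trans (by exact_mod_cast hn)
        rw [hcut]; dsimp only
        rw [Set.indicator_of_mem hx, sub_self, abs_zero])
    simpa using h
  obtain ⟨n, hn⟩ := (hlim.eventually (gt_mem_nhds (half_pos hδ))).exists
  obtain ⟨e, he, -, hint⟩ := tendsto_fsm (hP n).meas (hP n).bound (half_pos hδ)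
  refine ⟨fsm (cut n) e, sft_fsm_of_support (hP n) (fun x hx => Set.indicator_of_notMem
      (show x ∉ {x : ℝ | |x| ≤ (n : ℝ)} from not_le.2 hx) f) he,
    ⟨(smf_fsm (hP n).meas (hP n).bound he).smooth.continuous.measurable,
      abs_fsm_le (hP n).meas (hP n).bound e⟩, ?_⟩
  have hi : ∀ {u v : ℝ → ℝ}, Measurable u → Measurable v → (∀ x, |u x| ≤ B) → (∀ x, |v x| ≤ B) →
      Integrable (fun x => |u x - v x|) (gaussianReal 0 1) := fun hu hv hub hvb =>
    Integrable.of_bound (hu.sub hv).abs.aestronglyMeasurable (2 * B) (Eventually.of_forall fun x => by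
      rw [Real.norm_eq_abs, abs_abs, two_mul]
      exact (abs_sub _ _).trans (add_le_add (hub x) (hvb x)))
  have hgm := (smf_fsm (hP n).meas (hP n).bound he).smooth.continuous.measurable
  have i1 := hi hf.meas (hP n).meas hf.bound (hP n).bound
  have i2 := hi (hP n).meas hgm (hP n).bound (abs_fsm_le (hP n).meas (hP n).bound e)
  refine (integral_mono (hi hf.meas hgm hf.bound (abs_fsm_le (hP n).meas (hP n).bound e)) (i1.add i2)
    fun x => abs_sub_le _ (cut n x) _).trans ?_
  rw [integral_add' i1 i2]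
  linarith

end Vale.Agent.P157F
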