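import Vale.Agent.P157.Low.Parisi
import Vale.Agent.P157.Low.SmCalc
import Vale.Agent.P166F.Ent.Assoc

/-!
Bounded potentials depending on time, with their derivatives, and one tilted level applied to them.
No sign, symmetry or convexity is assumed; the slope is bounded by a given constant.
-/

namespace Vale.Agent.P157F

open MeasureTheory ProbabilityTheory Filter Set
open Vale.Agent.P157.Low
open Vale.Agent.P166F (GB Pot insStep_zero abs_insStep_le)
open scoped Topology

/-- A family of bounded potentials with slopes at most `D` and bounded derivatives. -/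
structure PFam (D : ℝ) where
  U : ℝ → ℝ → ℝ
  U1 : ℝ → ℝ → ℝ
  U2 : ℝ → ℝ → ℝ
  Ut : ℝ → ℝ → ℝ
  cont : Continuous fun p : ℝ × ℝ => U p.1 p.2
  cont1 : Continuous fun p : ℝ × ℝ => U1 p.1 p.2
  cont2 : Continuous fun p : ℝ × ℝ => U2 p.1 p.2
  contt : Continuous fun p : ℝ × ℝ => Ut p.1 p.2
  d1 : ∀ t x, HasDerivAt (U t) (U1 t x) x
  d2 : ∀ t x, HasDerivAt (U1 t) (U2 t x) x
  dt : ∀ t ∈ Ioo (0 : ℝ) 1, ∀ x, HasDerivAt (fun s => U s x) (Ut t x) t
  one : ∀ t x, |U1 t x| ≤ D
  bdd : ∃ B, ∀ t x, |U t x| ≤ B ∧ |U2 t x| ≤ B ∧ |Ut t x| ≤ B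

namespace PFam

variable {D : ℝ} (F : PFam D) {m δ : ℝ} {d : ℝ → ℝ} {θ : ℝ → ℝ → ℝ} {B : ℝ}

lemma D_nonneg (F : PFam D) : 0 ≤ D := (abs_nonneg _).trans (F.one 0 0)

lemma at_time (t : ℝ) : Continuous (F.U t) :=
  F.cont.comp (by fun_prop : Continuous fun x : ℝ => (t, x))

lemma pot (t : ℝ) : Pot (F.U t) := by
  obtain ⟨B, hB⟩ := F.bdd
  exact ⟨F.at_time t, B, fun x => (hB t x).1.trans (le_add_of_nonneg_right (abs_nonneg x))⟩

lemma gb_bdd (hθ : Continuous fun p : ℝ × ℝ => θ p.1 p.2) (hB : ∀ t x, |θ t x| ≤ B) : GB θ :=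
  ⟨hθ, fun _ => ⟨B, 0, le_rfl, fun t _ x => by simpa using hB t x⟩⟩

lemma gb_U : GB F.U := by
  obtain ⟨B, hB⟩ := F.bdd
  exact gb_bdd F.cont fun t x => (hB t x).1

lemma gb_wgt (hm : 0 ≤ m) (hθ : Continuous fun p : ℝ × ℝ => θ p.1 p.2) (hB : ∀ t x, |θ t x| ≤ B) :
    GB fun t x => Real.exp (m * F.U t x) * θ t x := by
  obtain ⟨M, hM⟩ := F.bdd
  refine gb_bdd (((F.cont.const_mul m).rexp).mul hθ) (B := Real.exp (m * M) * B) fun t x => ?_
  rw [abs_mul, Real.abs_exp]
  exact mul_le_mul (Real.exp_le_exp.2 (mul_le_mul_of_nonneg_left (abs_le.1 (hM t x).1).2 hm)) (hB t x)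
    (abs_nonneg _) (Real.exp_pos _).le

lemma gb_exp (hm : 0 ≤ m) : GB fun t x => Real.exp (m * F.U t x) := by
  simpa using F.gb_wgt hm (θ := fun _ _ => 1) continuous_const (B := 1) fun _ _ => by simp

lemma cont_insStep (hm : 0 ≤ m) (hd : Continuous d) (hθ : Continuous fun p : ℝ × ℝ => θ p.1 p.2)
    (hB : ∀ t x, |θ t x| ≤ B) :
    Continuous fun p : ℝ × ℝ => insStep m (d p.1) (F.U p.1) (θ p.1) p.2 :=
  ((F.gb_wgt hm hθ hB).cont_heat hd).div ((F.gb_exp hm).cont_heat hd) fun p =>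
    ((F.pot p.1).pos hm _ _).ne'

/-- The curvature seen by a level of exponent `m`. -/
noncomputable def th2 (m : ℝ) (t x : ℝ) : ℝ := F.U2 t x + m * F.U1 t x ^ 2

lemma cont_th2 (m : ℝ) : Continuous fun p : ℝ × ℝ => F.th2 m p.1 p.2 :=
  F.cont2.add ((F.cont1.pow 2).const_mul m)

lemma sq_le (t x : ℝ) : F.U1 t x ^ 2 ≤ D ^ 2 := by
  rw [← sq_abs]; exact pow_le_pow_left₀ (abs_nonneg _) (F.one t x) 2

lemma bdd_th2 (hm : 0 ≤ m) (hB : ∀ t x, |F.U2 t x| ≤ B) (t x : ℝ) : |F.th2 m t x| ≤ B + m * D ^ 2 := by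
  refine (abs_add_le _ _).trans (add_le_add (hB t x) ?_)
  rw [abs_of_nonneg (mul_nonneg hm (sq_nonneg _))]
  exact mul_le_mul_of_nonneg_left (F.sq_le t x) hm

lemma abs_mul_U1 (hm : 0 ≤ m) (t x : ℝ) : |m * F.U1 t x| ≤ m * D := by
  rw [abs_mul, abs_of_nonneg hm]
  exact mul_le_mul_of_nonneg_left (F.one t x) hm

lemma deriv_wgt (hm : 0 ≤ m) (t v y : ℝ) :
    HasDerivAt (heat (fun x => Real.exp (m * F.U t x)) v)
      (m * heat (fun x => Real.exp (m * F.U t x) * F.U1 t x) v y) y := by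
  have h := GB.dy (F.gb_exp hm) (F.gb_wgt hm (θ := fun t x => m * F.U1 t x)
    (F.cont1.const_mul m) (F.abs_mul_U1 hm))
    (t := t) (fun x => ((F.d1 t x).const_mul m).exp) v y
  refine h.congr_deriv ?_
  simp only [heat]
  rw [← integral_const_mul]
  exact integral_congr_ae (Eventually.of_forall fun z => by ring)

lemma deriv_pot (hm : 0 ≤ m) (t v y : ℝ) :
    HasDerivAt (potStep m v (F.U t)) (insStep m v (F.U t) (F.U1 t) y) y := by
  rcases eq_or_lt_of_le hm with rfl | hm'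
  · rw [insStep_zero, show potStep 0 v (F.U t) = heat (F.U t) v by simp [potStep]]
    exact GB.dy F.gb_U (gb_bdd F.cont1 F.one) (F.d1 t) v y
  · have h := (((F.deriv_wgt hm t v y).log ((F.pot t).pos hm v y).ne')).div_const m
    have e : potStep m v (F.U t) = fun y => Real.log (heat (fun x => Real.exp (m * F.U t x)) v y) / m := by
      simp [potStep, hm'.ne']
    rw [e]
    refine h.congr_deriv ?_
    simp only [insStep]
    field_simp

lemma deriv_ins (hm : 0 ≤ m) (t v y : ℝ) :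
    HasDerivAt (insStep m v (F.U t) (F.U1 t))
      (insStep m v (F.U t) (F.th2 m t) y - m * insStep m v (F.U t) (F.U1 t) y ^ 2) y := by
  obtain ⟨B, hB⟩ := F.bdd
  have hN := GB.dy (F.gb_wgt hm F.cont1 F.one)
    (F.gb_wgt hm (F.cont_th2 m) (F.bdd_th2 hm fun t x => (hB t x).2.1)) (t := t) (fun x =>
      (((F.d1 t x).const_mul m).exp.mul (F.d2 t x)).congr_deriv (by simp only [th2]; ring)) v y
  refine (hN.div (F.deriv_wgt hm t v y) ((F.pot t).pos hm v y).ne').congr_deriv ?_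
  simp only [insStep]
  have := ((F.pot t).pos hm v y).ne'
  field_simp

lemma deriv_time (hm : 0 ≤ m) (hdc : Continuous d) (hd : ∀ s ∈ Ioo (0 : ℝ) 1, HasDerivAt d δ s)
    (hpos : δ = 0 ∨ ∀ s ∈ Ioo (0 : ℝ) 1, 0 < d s) {t : ℝ} (ht : t ∈ Ioo (0 : ℝ) 1) (y : ℝ) :
    HasDerivAt (fun s => potStep m (d s) (F.U s) y)
      (insStep m (d t) (F.U t) (F.Ut t) y + δ / 2 * insStep m (d t) (F.U t) (F.th2 m t) y) t := by
  obtain ⟨B, hB⟩ := F.bdd
  rcases eq_or_lt_of_le hm with rfl | hm'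
  · have e : (fun s => potStep 0 (d s) (F.U s) y) = fun s => heat (F.U s) (d s) y := by
      funext s; simp [potStep]
    have e2 : F.th2 0 t = F.U2 t := by funext x; simp [th2]
    rw [e, insStep_zero, insStep_zero, e2]
    exact GB.dt F.gb_U (gb_bdd F.cont1 F.one) (gb_bdd F.cont2 fun t x => (hB t x).2.1)
      (gb_bdd F.contt fun t x => (hB t x).2.2) F.d1 F.d2 F.dt hdc hd hpos ht y
  · have hb : ∀ {φ : ℝ → ℝ → ℝ} {C : ℝ}, (∀ t x, |φ t x| ≤ C) → ∀ t x, |m * φ t x| ≤ m * C :=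
      fun hφ t x => by rw [abs_mul, abs_of_nonneg hm]; exact mul_le_mul_of_nonneg_left (hφ t x) hm
    have h := GB.dt (g := fun s x => Real.exp (m * F.U s x))
      (g1 := fun s x => Real.exp (m * F.U s x) * (m * F.U1 s x))
      (g2 := fun s x => Real.exp (m * F.U s x) * (m * F.th2 m s x))
      (gt := fun s x => Real.exp (m * F.U s x) * (m * F.Ut s x)) (F.gb_exp hm)
      (F.gb_wgt hm (F.cont1.const_mul m) (hb F.one))
      (F.gb_wgt hm ((F.cont_th2 m).const_mul m) (hb (F.bdd_th2 hm fun t x => (hB t x).2.1)))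
      (F.gb_wgt hm (F.contt.const_mul m) (hb fun t x => (hB t x).2.2))
      (fun s x => ((F.d1 s x).const_mul m).exp)
      (fun s x => (((F.d1 s x).const_mul m).exp.mul ((F.d2 s x).const_mul m)).congr_deriv (by
        simp only [th2]; ring))
      (fun s hs x => ((F.dt s hs x).const_mul m).exp) hdc hd hpos ht y
    have h' := (h.log ((F.pot t).pos hm _ y).ne').div_const m
    have e : (fun s => potStep m (d s) (F.U s) y) =
        fun s => Real.log (heat (fun x => Real.exp (m * F.U s x)) (d s) y) / m := by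
      funext s; simp [potStep, hm'.ne']
    rw [e]
    refine h'.congr_deriv ?_
    simp only [insStep, heat]
    simp only [mul_left_comm _ m, integral_const_mul]
    have := ((F.pot t).pos hm (d t) y).ne'
    simp only [heat] at this
    field_simp

lemma abs_potStep (hm : 0 ≤ m) (hB : ∀ t x, |F.U t x| ≤ B) (t v y : ℝ) :
    |potStep m v (F.U t) y| ≤ B := by
  rcases eq_or_lt_of_le hm with rfl | hm'
  · simpa [potStep] using abs_heat_le_bdd (hB t) v y
  · have h := heat_mem_Icc (G := fun x => Real.exp (m * F.U t x))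
      (lo := Real.exp (m * -B)) (hi := Real.exp (m * B))
      ⟨((F.at_time t).const_mul m).rexp, Real.exp (m * B), fun x => by
        rw [Real.abs_exp]
        exact Real.exp_le_exp.2 (mul_le_mul_of_nonneg_left (abs_le.1 (hB t x)).2 hm)⟩
      (fun x => ⟨Real.exp_le_exp.2 (mul_le_mul_of_nonneg_left (abs_le.1 (hB t x)).1 hm),
        Real.exp_le_exp.2 (mul_le_mul_of_nonneg_left (abs_le.1 (hB t x)).2 hm)⟩) v y
    have hp := lt_of_lt_of_le (Real.exp_pos _) h.1
    simp only [potStep, hm'.ne', if_false]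
    rw [abs_le, le_div_iff₀ hm', div_le_iff₀ hm', mul_comm _ m, mul_comm B m,
      Real.le_log_iff_exp_le hp, Real.log_le_iff_le_exp hp]
    exact h

/-- One level applied to the family. -/
noncomputable def step (hm : 0 ≤ m) (hdc : Continuous d)
    (hd : ∀ s ∈ Ioo (0 : ℝ) 1, HasDerivAt d δ s)
    (hpos : δ = 0 ∨ ∀ s ∈ Ioo (0 : ℝ) 1, 0 < d s) : PFam D where
  U t := potStep m (d t) (F.U t)
  U1 t := insStep m (d t) (F.U t) (F.U1 t)
  U2 t y := insStep m (d t) (F.U t) (F.th2 m t) y - m * insStep m (d t) (F.U t) (F.U1 t) y ^ 2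
  Ut t y := insStep m (d t) (F.U t) (F.Ut t) y + δ / 2 * insStep m (d t) (F.U t) (F.th2 m t) y
  cont := by
    rcases eq_or_lt_of_le hm with rfl | hm'
    · simpa [potStep] using F.gb_U.cont_heat hdc
    · simpa [potStep, hm'.ne'] using (((F.gb_exp hm).cont_heat hdc).log fun p =>
        ((F.pot p.1).pos hm _ _).ne').div_const m
  cont1 := F.cont_insStep hm hdc F.cont1 F.one
  cont2 := by
    obtain ⟨B, hB⟩ := F.bdd
    exact (F.cont_insStep hm hdc (F.cont_th2 m) (F.bdd_th2 hm fun t x => (hB t x).2.1)).sub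
      (((F.cont_insStep hm hdc F.cont1 F.one).pow 2).const_mul m)
  contt := by
    obtain ⟨B, hB⟩ := F.bdd
    exact (F.cont_insStep hm hdc F.contt fun t x => (hB t x).2.2).add
      ((F.cont_insStep hm hdc (F.cont_th2 m) (F.bdd_th2 hm fun t x => (hB t x).2.1)).const_mul _)
  d1 t y := F.deriv_pot hm t (d t) y
  d2 t y := F.deriv_ins hm t (d t) y
  dt _ ht y := F.deriv_time hm hdc hd hpos ht y
  one t x := abs_insStep_le (F.pot t) hm
    (F.cont1.comp (by fun_prop : Continuous fun x : ℝ => (t, x))) (F.one t) _ _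
  bdd := by
    obtain ⟨B, hB⟩ := F.bdd
    refine ⟨B + 2 * (m * D ^ 2) + |δ| / 2 * (B + m * D ^ 2), fun t y => ?_⟩
    have h0 : 0 ≤ B := (abs_nonneg _).trans (hB t y).1
    have hmD : 0 ≤ m * D ^ 2 := mul_nonneg hm (sq_nonneg D)
    have h2 : |insStep m (d t) (F.U t) (F.th2 m t) y| ≤ B + m * D ^ 2 := abs_insStep_le (F.pot t) hm
      ((F.cont_th2 m).comp (by fun_prop : Continuous fun x : ℝ => (t, x)))
      (F.bdd_th2 hm (fun t x => (hB t x).2.1) t) (d t) y
    have h3 : |insStep m (d t) (F.U t) (F.Ut t) y| ≤ B := abs_insStep_le (F.pot t) hm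
      (F.contt.comp (by fun_prop : Continuous fun x : ℝ => (t, x))) (fun x => (hB t x).2.2) (d t) y
    have h1 : |m * insStep m (d t) (F.U t) (F.U1 t) y ^ 2| ≤ m * D ^ 2 := by
      rw [abs_mul, abs_of_nonneg hm, abs_pow]
      exact mul_le_mul_of_nonneg_left (pow_le_pow_left₀ (abs_nonneg _) (abs_insStep_le (F.pot t) hm
        (F.cont1.comp (by fun_prop : Continuous fun x : ℝ => (t, x))) (F.one t) _ _) 2) hm
    have h4 : (0 : ℝ) ≤ |δ| / 2 * (B + m * D ^ 2) := by positivity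
    refine ⟨(F.abs_potStep hm (fun t x => (hB t x).1) t _ y).trans (by linarith),
      (abs_sub _ _).trans (by linarith), (abs_add_le _ _).trans ?_⟩
    rw [abs_mul, abs_div, abs_two]
    linarith [mul_le_mul_of_nonneg_left h2 (by positivity : 0 ≤ |δ| / 2)]

/-- A potential with five bounded derivatives, constant in time. -/
noncomputable def still {f : ℝ → ℝ} (hf : Smf f) (hD : ∀ x, |deriv f x| ≤ D) : PFam D where
  U _ := f
  U1 _ := deriv f
  U2 _ := deriv (deriv f)
  Ut _ _ := 0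
  cont := hf.differentiable.continuous.comp continuous_snd
  cont1 := hf.continuous_deriv.comp continuous_snd
  cont2 := hf.bdD_deriv₂.cont.comp continuous_snd
  contt := continuous_const
  d1 _ x := (hf.differentiable x).hasDerivAt
  d2 _ x := by
    have h := hf.smooth.differentiable_iteratedDeriv 1 (by norm_num)
    rw [iteratedDeriv_one] at h
    exact (h x).hasDerivAt
  dt _ _ _ := hasDerivAt_const _ _
  one _ := hD
  bdd := by
    obtain ⟨B, hB⟩ := hf.bdd
    refine ⟨B, fun _ x => ⟨by simpa using hB 0 (by norm_num) x, ?_, ?_⟩⟩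
    · simpa [iteratedDeriv_succ] using hB 2 (by norm_num) x
    · simpa using (abs_nonneg _).trans (hB 0 (by norm_num) x)

end PFam

end Vale.Agent.P157F
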