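import Vale.Agent.P166F.Ent.Chain
import Vale.Agent.P157F.Pat.Fam

/-!
The nested potential over a moving innermost family along a segment of increments, with its squared
slopes and the carried curvature.
-/

namespace Vale.Agent.P157F

open MeasureTheory ProbabilityTheory Filter Set
open Vale.Agent.P157.Low
open Vale.Agent.P166F (Pot insStep_sum insStep_le insStep_const abs_insStep_le dT tUp mIn lmass
  lmass_eq_mIn Seg)
open scoped Topology

variable {r : ℕ}

/-- The squared slope created at level `i`, carried out over `k` levels. -/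
noncomputable def sqUp (m d : Fin (r + 1) → ℝ) (u θ : ℝ → ℝ) : ℕ → Fin (r + 1) → ℝ → ℝ
  | 0, _ => fun _ => 0
  | k + 1, i =>
    if h : k ≤ r then
      insStep (m ⟨r - k, by omega⟩) (d ⟨r - k, by omega⟩) (potUp m d u k)
        (if (i : ℕ) = r - k then fun y => insUp m d u θ k y ^ 2 else sqUp m d u θ k i)
    else sqUp m d u θ k i

/-- Two insertions meeting at a level, carried to the root. -/
lemma pairRoot_sq (m d : Fin (r + 1) → ℝ) (u θ : ℝ → ℝ) (l : Fin (r + 1)) :
    pairRoot m d u θ θ l = sqUp m d u θ (r + 1) l 0 := by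
  set k := r - (l : ℕ) with hk
  set m' : Fin ((l : ℕ) + 1) → ℝ := fun i => m ⟨i, by omega⟩
  set d' : Fin ((l : ℕ) + 1) → ℝ := fun i => d ⟨i, by omega⟩
  set η := fun y => insUp m d u θ k y * insUp m d u θ k y with hη
  have key : ∀ n, n ≤ (l : ℕ) + 1 →
      potUp m' d' (potUp m d u k) n = potUp m d u (k + n) ∧
        insUp m' d' (potUp m d u k) η n = if n = 0 then η else sqUp m d u θ (k + n) l := by
    intro n
    induction n with
    | zero => exact fun _ => ⟨rfl, rfl⟩
    | succ n ih =>
      intro hn
      obtain ⟨hP, hI⟩ := ih (by omega)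
      have h1 : n ≤ (l : ℕ) := by omega
      have h2 : k + n ≤ r := by omega
      have hj : (l : ℕ) - n = r - (k + n) := by omega
      rw [← Nat.add_assoc k n 1]
      constructor
      · simp only [potUp, h1, h2, dite_true, hP, m', d', hj]
      · rw [if_neg (by omega)]
        funext y
        simp only [insUp, sqUp, insStep, h1, h2, dite_true, hP, m', d', hj]
        rw [show insUp (fun i : Fin ((l : ℕ) + 1) => m ⟨i, by omega⟩) (fun i => d ⟨i, by omega⟩)
          (potUp m d u k) η n = (if (l : ℕ) = r - (k + n) then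
            fun y => insUp m d u θ (k + n) y ^ 2 else sqUp m d u θ (k + n) l) from by
          rw [show insUp _ _ _ η n = _ from hI]
          rcases Nat.eq_zero_or_pos n with rfl | hn0
          · rw [if_pos rfl, if_pos (by omega)]
            funext y
            simp only [hη, add_zero, sq]
          · rw [if_neg (by omega), if_neg (by omega)]]
  have := congr_fun (key ((l : ℕ) + 1) le_rfl).2 0
  rw [if_neg (by omega), show k + ((l : ℕ) + 1) = r + 1 by omega] at this
  exact this

/-- The facts about `k` levels along a segment, over an innermost family with curvature `h`. -/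
structure PStage {D : ℝ} (m d δ : Fin (r + 1) → ℝ) (F0 : PFam D) (h : ℝ → ℝ → ℝ) (e : ℝ) (k : ℕ) where
  F : PFam D
  hU : ∀ t, F.U t = potUp m (dT d δ t) (F0.U t) k
  hU1 : ∀ t, F.U1 t = insUp m (dT d δ t) (F0.U t) (F0.U1 t) k
  h_cont : Continuous fun p : ℝ × ℝ => insUp m (dT d δ p.1) (F0.U p.1) (h p.1) k p.2
  h_bdd : ∃ B, ∀ t y, |insUp m (dT d δ t) (F0.U t) (h t) k y| ≤ B
  g_cont : ∀ i, Continuous fun p : ℝ × ℝ => sqUp m (dT d δ p.1) (F0.U p.1) (F0.U1 p.1) k i p.2
  g_mem : ∀ t i y, |sqUp m (dT d δ t) (F0.U t) (F0.U1 t) k i y| ≤ D ^ 2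
  g_zero : ∀ t (i : Fin (r + 1)), (i : ℕ) + k ≤ r →
    sqUp m (dT d δ t) (F0.U t) (F0.U1 t) k i = fun _ => 0
  curv : ∀ t y, F.U2 t y + mIn m k * F.U1 t y ^ 2 = insUp m (dT d δ t) (F0.U t) (h t) k y -
    ∑ i, lmass m i * sqUp m (dT d δ t) (F0.U t) (F0.U1 t) k i y
  slope : ∀ t y, F.Ut t y = (((∑ l : Fin (r + 1), if r < (l : ℕ) + k then δ l else 0) + e) *
      insUp m (dT d δ t) (F0.U t) (h t) k y -
    ∑ i, lmass m i * tUp δ k i * sqUp m (dT d δ t) (F0.U t) (F0.U1 t) k i y) / 2

/-- Linearity of a tilted average, with one more function. -/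
lemma insStep_lin {ι : Type} [Fintype ι] {U : ℝ → ℝ} (hU : Pot U) {m : ℝ} (hm : 0 ≤ m) (v y c : ℝ)
    (η : ℝ → ℝ) (a : ι → ℝ) (θ : ι → ℝ → ℝ) (hη : Continuous η) {C : ℝ} (hC : ∀ x, |η x| ≤ C)
    (hθ : ∀ i, Continuous (θ i)) {B : ℝ} (hB : ∀ i x, |θ i x| ≤ B) :
    insStep m v U (fun x => c * η x + ∑ i, a i * θ i x) y =
      c * insStep m v U η y + ∑ i, a i * insStep m v U (θ i) y := by
  have h := insStep_sum hU hm v y 0 (fun o : Option ι => o.elim c a) (fun o => o.elim η θ)
    (fun o => by cases o <;> simp [hη, hθ]) (B := max C B) fun o x => by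
      cases o with
      | none => exact (hC x).trans (le_max_left _ _)
      | some i => exact (hB i x).trans (le_max_right _ _)
  simpa [Fintype.sum_option] using h

variable {D : ℝ} {m d δ : Fin (r + 1) → ℝ}

/-- The stage after `k` levels. -/
theorem exists_pstage (hs : Seg m d δ) (F0 : PFam D) {h : ℝ → ℝ → ℝ} {e : ℝ}
    (hc : Continuous fun p : ℝ × ℝ => h p.1 p.2) (hb : ∃ B, ∀ t y, |h t y| ≤ B)
    (h2 : ∀ t y, F0.U2 t y + F0.U1 t y ^ 2 = h t y) (ht : ∀ t y, F0.Ut t y = e * h t y / 2) :
    ∀ k, k ≤ r + 1 → Nonempty (PStage m d δ F0 h e k)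
  | 0, _ => ⟨{
      F := F0
      hU := fun _ => rfl
      hU1 := fun _ => rfl
      h_cont := hc
      h_bdd := hb
      g_cont := fun _ => continuous_const
      g_mem := fun _ _ _ => by simp [sqUp, sq_nonneg]
      g_zero := fun _ _ _ => rfl
      curv := fun t y => by simp [mIn, sqUp, insUp, h2]
      slope := fun t y => by
        simp only [sqUp, mul_zero, Finset.sum_const_zero, sub_zero, insUp]
        rw [Finset.sum_eq_zero fun l _ => if_neg (by omega), zero_add, ht] }⟩
  | k + 1, hk1 => by
    obtain ⟨S⟩ := exists_pstage hs F0 hc hb h2 ht k (by omega)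
    have hk : k ≤ r := by omega
    obtain ⟨BH, hBH⟩ := S.h_bdd
    set j : Fin (r + 1) := ⟨r - k, by omega⟩ with hj
    have hdc : Continuous fun t => dT d δ t j :=
      continuous_const.max (continuous_const.add (continuous_id.mul continuous_const))
    let F' := S.F.step (hs.hm j) hdc (fun s hx => hs.dT_deriv j hx) (hs.dT_pos j)
    let η : ℝ → ℝ → ℝ := fun t => insUp m (dT d δ t) (F0.U t) (h t) k
    let θ : Fin (r + 1) → ℝ → ℝ → ℝ := fun i t =>
      if (i : ℕ) = r - k then fun y => S.F.U1 t y ^ 2 else sqUp m (dT d δ t) (F0.U t) (F0.U1 t) k i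
    have hη : ∀ t, insUp m (dT d δ t) (F0.U t) (h t) (k + 1) =
        insStep (m j) (dT d δ t j) (S.F.U t) (η t) := fun t => by
      funext y
      simp only [insUp, hk, dite_true, S.hU, insStep, η, hj]
    have hg : ∀ t i, sqUp m (dT d δ t) (F0.U t) (F0.U1 t) (k + 1) i =
        insStep (m j) (dT d δ t j) (S.F.U t) (θ i t) := fun t i => by
      simp only [sqUp, hk, dite_true, S.hU, S.hU1, θ, hj]
    have hθc : ∀ i, Continuous fun p : ℝ × ℝ => θ i p.1 p.2 := fun i => by
      simp only [θ]
      split_ifs
      · exact S.F.cont1.pow 2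
      · exact S.g_cont i
    have hθB : ∀ i t y, |θ i t y| ≤ D ^ 2 := fun i t y => by
      simp only [θ]
      split_ifs
      · rw [abs_of_nonneg (sq_nonneg _)]; exact S.F.sq_le t y
      · exact S.g_mem t i y
    have hθ1 : ∀ i t, Continuous (θ i t) := fun i t =>
      (hθc i).comp (by fun_prop : Continuous fun x : ℝ => (t, x))
    have hη1 : ∀ t, Continuous (η t) := fun t =>
      S.h_cont.comp (by fun_prop : Continuous fun x : ℝ => (t, x))
    -- the curvature inside this level
    have hS : ∀ t x, S.F.th2 (m j) t x = 1 * η t x + ∑ i, -lmass m i * θ i t x := fun t x => by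
      have e' : ∀ i, -lmass m i * θ i t x =
          -lmass m i * sqUp m (dT d δ t) (F0.U t) (F0.U1 t) k i x +
          (if i = j then -lmass m j * S.F.U1 t x ^ 2 else 0) := fun i => by
        simp only [θ]
        rcases eq_or_ne i j with rfl | hne
        · have h0 := congr_fun (S.g_zero t j (by simp only [hj]; omega)) x
          rw [if_pos (by rw [hj]), if_pos rfl, h0]
          ring
        · have : (i : ℕ) ≠ r - k := fun hh => hne (Fin.ext hh)
          simp [this, hne]
      simp only [e', Finset.sum_add_distrib, Finset.sum_ite_eq', Finset.mem_univ, if_true]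
      have hcv := S.curv t x
      have hl : lmass m j = mIn m k - m j := lmass_eq_mIn m hk
      simp only [PFam.th2, neg_mul, Finset.sum_neg_distrib, η]
      rw [hl]
      linarith
    have hKS : ∀ t y, insStep (m j) (dT d δ t j) (S.F.U t) (S.F.th2 (m j) t) y =
        insUp m (dT d δ t) (F0.U t) (h t) (k + 1) y -
          ∑ i, lmass m i * sqUp m (dT d δ t) (F0.U t) (F0.U1 t) (k + 1) i y := fun t y => by
      rw [show S.F.th2 (m j) t = fun x => 1 * η t x + ∑ i, -lmass m i * θ i t x from funext (hS t),
        insStep_lin (S.F.pot t) (hs.hm j) _ y 1 (η t) _ (fun i => θ i t) (hη1 t) (hBH t)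
          (fun i => hθ1 i t) (fun i => hθB i t)]
      simp only [hg, hη, neg_mul, Finset.sum_neg_distrib]
      ring
    have hT0 : tUp δ k j = 0 := by
      refine Finset.sum_eq_zero fun l _ => if_neg fun hh => ?_
      have h1 : (l : ℕ) ≤ r - k := hh.1
      omega
    have hz : ∀ t (i : Fin (r + 1)), (i : ℕ) + (k + 1) ≤ r →
        sqUp m (dT d δ t) (F0.U t) (F0.U1 t) (k + 1) i = fun _ => 0 :=
      fun t i hi => by
        funext y
        rw [hg]
        simp only [θ, show (i : ℕ) ≠ r - k by omega, if_false, S.g_zero t i (by omega)]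
        exact insStep_const (S.F.pot t) (hs.hm j) _ 0 y
    refine ⟨{
      F := F'
      hU := fun t => ?_
      hU1 := fun t => ?_
      h_cont := ?_
      h_bdd := ⟨BH, fun t y => ?_⟩
      g_cont := fun i => ?_
      g_mem := fun t i y => ?_
      g_zero := hz
      curv := fun t y => ?_
      slope := fun t y => ?_ }⟩
    · funext y
      simp only [F', PFam.step, S.hU, potUp, hk, dite_true, potStep, hj]
    · funext y
      simp only [F', PFam.step, S.hU, S.hU1, insUp, hk, dite_true, insStep, hj]
    · simp only [hη]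
      exact S.F.cont_insStep (hs.hm j) hdc S.h_cont hBH
    · rw [hη]
      exact abs_insStep_le (S.F.pot t) (hs.hm j) (hη1 t) (hBH t) _ y
    · simp only [hg]
      exact S.F.cont_insStep (hs.hm j) hdc (hθc i) (hθB i)
    · rw [hg]
      exact abs_insStep_le (S.F.pot t) (hs.hm j) (hθ1 i t) (hθB i t) _ y
    · simp only [F', PFam.step]
      rw [show mIn m (k + 1) = m j from by
        rw [mIn, dif_pos ⟨by omega, hk1⟩]; congr 1; ext; simp only [hj]; omega, hKS]
      ring
    · simp only [F', PFam.step]
      rw [hKS]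
      have e1 : S.F.Ut t = fun x =>
          ((∑ l : Fin (r + 1), if r < (l : ℕ) + k then δ l else 0) + e) / 2 * η t x +
          ∑ i, -(lmass m i * tUp δ k i / 2) * θ i t x := by
        funext x
        have ee : ∀ i, -(lmass m i * tUp δ k i / 2) * θ i t x =
            -(lmass m i * tUp δ k i * sqUp m (dT d δ t) (F0.U t) (F0.U1 t) k i x) / 2 := fun i => by
          simp only [θ]
          split_ifs with hi
          · rw [show i = j from Fin.ext hi, hT0]; ring
          · ring
        rw [S.slope t x, Finset.sum_congr rfl fun i _ => ee i, ← Finset.sum_div, Finset.sum_neg_distrib]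
        ring
      rw [e1, insStep_lin (S.F.pot t) (hs.hm j) _ y _ (η t) _ (fun i => θ i t) (hη1 t) (hBH t)
        (fun i => hθ1 i t) (fun i => hθB i t)]
      have e2 : ∀ l : Fin (r + 1), (if r < (l : ℕ) + (k + 1) then δ l else 0) =
          (if r < (l : ℕ) + k then δ l else 0) + if l = j then δ j else 0 := fun l => by
        rcases eq_or_ne l j with rfl | hne
        · rw [if_pos (by simp only [hj]; omega), if_neg (by simp only [hj]; omega), if_pos rfl, zero_add]
        · have hl : (l : ℕ) ≠ r - k := fun hh => hne (Fin.ext hh)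
          rw [if_neg hne, add_zero]
          by_cases hl2 : r < (l : ℕ) + k
          · rw [if_pos hl2, if_pos (by omega)]
          · rw [if_neg hl2, if_neg (by omega)]
      simp only [e2, Finset.sum_add_distrib, Finset.sum_ite_eq', Finset.mem_univ, if_true]
      have e3 : ∀ i, lmass m i * tUp δ (k + 1) i *
          sqUp m (dT d δ t) (F0.U t) (F0.U1 t) (k + 1) i y =
          lmass m i * tUp δ k i * sqUp m (dT d δ t) (F0.U t) (F0.U1 t) (k + 1) i y +
            δ j * (lmass m i * sqUp m (dT d δ t) (F0.U t) (F0.U1 t) (k + 1) i y) := fun i => by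
        by_cases hi : j ≤ i
        · have : tUp δ (k + 1) i = tUp δ k i + δ j := by
            have ej : ∀ l : Fin (r + 1), (if l ≤ i ∧ r < (l : ℕ) + (k + 1) then δ l else 0) =
                (if l ≤ i ∧ r < (l : ℕ) + k then δ l else 0) + if l = j then δ j else 0 := fun l => by
              rcases eq_or_ne l j with rfl | hne
              · rw [if_pos ⟨hi, by simp only [hj]; omega⟩, if_neg (fun hh => by
                  have := hh.2; simp only [hj] at this; omega), if_pos rfl, zero_add]
              · have hl : (l : ℕ) ≠ r - k := fun hh => hne (Fin.ext hh)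
                rw [if_neg hne, add_zero]
                by_cases hl2 : l ≤ i ∧ r < (l : ℕ) + k
                · rw [if_pos hl2, if_pos ⟨hl2.1, by omega⟩]
                · rw [if_neg hl2, if_neg (fun hh => hl2 ⟨hh.1, by omega⟩)]
            simp only [tUp, ej, Finset.sum_add_distrib, Finset.sum_ite_eq', Finset.mem_univ, if_true]
          rw [this]
          ring
        · have hij : (i : ℕ) < r - k := by
            rw [hj, Fin.le_def] at hi
            simp only at hi
            omega
          simp [hz t i (by omega)]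
      rw [Finset.sum_congr rfl fun i _ => e3 i, Finset.sum_add_distrib, ← Finset.mul_sum]
      simp only [← hg, ← hη, neg_mul, Finset.sum_neg_distrib, div_mul_eq_mul_div, ← Finset.sum_div]
      ring

end Vale.Agent.P157F
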