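import Vale.Agent.P166F.Ent.Line
import Vale.Agent.P157F.Pat.Chain

/-!
The one-pattern functional along a segment of overlap paths on common levels: its derivative is the
pairing of the displacement with the conjugate overlaps; consequences for comparisons of paths.
-/

namespace Vale.Agent.P157F

open MeasureTheory ProbabilityTheory Filter Set
open Vale.Agent.P157.Low
open Vale.Agent.P166F (dT tUp lmass Seg sum_incr incr_line tUp_full insStep_zero insStep_const)
open scoped Topology

variable {r : ℕ} {f : ℝ → ℝ} {D : ℝ}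

/-- One level of exponent one over a still potential gives the smoothed weight and its slope. -/
lemma top_step (hf : Smf f) (q : Fin (r + 1) → ℝ) :
    potStep 1 (1 - q (Fin.last r)) f = (fun y => Real.log (topW f q y)) ∧
      insStep 1 (1 - q (Fin.last r)) f (deriv f) = topD f q := by
  constructor <;> funext y
  · simp [potStep, topW]
  · simp only [insStep, topD, topW, one_mul, funext (deriv_exp_f hf)]

lemma lp_m_nonneg {m q : Fin (r + 1) → ℝ} (h : LevelParam m q) (l : Fin (r + 1)) : 0 ≤ m l :=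
  h.zero ▸ h.monom (Fin.zero_le l)

lemma lp_lmass_nonneg {m q : Fin (r + 1) → ℝ} (h : LevelParam m q) (l : Fin (r + 1)) :
    0 ≤ lmass m l := by
  rw [lmass]
  split_ifs with hl
  · exact sub_nonneg.2 (h.monom (Fin.le_def.2 (by simp)))
  · rcases eq_or_ne l 0 with rfl | h0
    · rw [h.zero]; norm_num
    · exact sub_nonneg.2 (h.pos l h0).2

/-- Points of a segment of paths are paths. -/
lemma lp_line {m p p' : Fin (r + 1) → ℝ} (h : LevelParam m p) (h' : LevelParam m p') {t : ℝ}
    (ht : t ∈ Icc (0 : ℝ) 1) : LevelParam m fun i => p i + t * (p' i - p i) := by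
  refine ⟨h.zero, h.pos, h.monom, fun i j hij => ?_, fun i => ⟨?_, ?_⟩⟩
  · show p i + t * (p' i - p i) ≤ p j + t * (p' j - p j)
    nlinarith [mul_le_mul_of_nonneg_left (h.monoq hij) (sub_nonneg.2 ht.2),
      mul_le_mul_of_nonneg_left (h'.monoq hij) ht.1]
  · nlinarith [mul_nonneg (sub_nonneg.2 ht.2) (h.rangeq i).1, mul_nonneg ht.1 (h'.rangeq i).1]
  · rcases eq_or_lt_of_le ht.1 with h0 | h0
    · rw [← h0]; simpa using (h.rangeq i).2
    · nlinarith [mul_le_mul_of_nonneg_left (h.rangeq i).2.le (sub_nonneg.2 ht.2),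
        mul_lt_mul_of_pos_left (h'.rangeq i).2 h0]

/-- The one-pattern functional along a segment. -/
theorem pat_line (hf : Smf f) (hD : ∀ x, |deriv f x| ≤ D) {m p p' : Fin (r + 1) → ℝ}
    (hp : LevelParam m p) (hp' : LevelParam m p') :
    ContinuousOn (fun t : ℝ => potUp m (incr fun i => p i + t * (p' i - p i))
        (fun y => Real.log (topW f (fun i => p i + t * (p' i - p i)) y)) (r + 1) 0) (Icc 0 1) ∧
      ∀ t ∈ Ioo (0 : ℝ) 1, HasDerivAt (fun t : ℝ => potUp m (incr fun i => p i + t * (p' i - p i))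
          (fun y => Real.log (topW f (fun i => p i + t * (p' i - p i)) y)) (r + 1) 0)
        (-(∑ l, lmass m l * (p' l - p l) * conj f m (fun i => p i + t * (p' i - p i)) l) / 2) t := by
  set δ : Fin (r + 1) → ℝ := fun l => incr p' l - incr p l
  have hs : Seg m (incr p) δ := ⟨fun l => lp_m_nonneg hp l, incr_nonneg hp.monoq (hp.rangeq 0).1,
    fun l => by simpa [δ] using incr_nonneg hp'.monoq (hp'.rangeq 0).1 l⟩
  set τ : Fin 1 → ℝ := fun _ => 1 - p (Fin.last r)
  set ε : Fin 1 → ℝ := fun _ => -(p' (Fin.last r) - p (Fin.last r))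
  have ht0 : Seg (fun _ : Fin 1 => (1 : ℝ)) τ ε := ⟨fun _ => zero_le_one,
    fun _ => by simp only [τ]; linarith [(hp.rangeq (Fin.last r)).2],
    fun _ => by simp only [τ, ε]; linarith [(hp'.rangeq (Fin.last r)).2]⟩
  have hτc : Continuous fun t => dT τ ε t 0 :=
    continuous_const.max (continuous_const.add (continuous_id.mul continuous_const))
  let F0 : PFam D := (PFam.still hf hD).step (m := 1) zero_le_one hτc
    (fun s hx => ht0.dT_deriv 0 hx) (ht0.dT_pos 0)
  set h : ℝ → ℝ → ℝ := fun t => insStep 1 (dT τ ε t 0) f ((PFam.still hf hD).th2 1 t) with hh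
  obtain ⟨B, hB⟩ := (PFam.still hf hD).bdd
  have hc : Continuous fun q : ℝ × ℝ => h q.1 q.2 :=
    (PFam.still hf hD).cont_insStep zero_le_one hτc ((PFam.still hf hD).cont_th2 1)
      ((PFam.still hf hD).bdd_th2 zero_le_one fun t x => (hB t x).2.1)
  have hb : ∃ B, ∀ t y, |h t y| ≤ B := ⟨B + 1 * D ^ 2, fun t y =>
    Vale.Agent.P166F.abs_insStep_le ((PFam.still hf hD).pot t) zero_le_one
      (((PFam.still hf hD).cont_th2 1).comp (by fun_prop : Continuous fun x : ℝ => (t, x)))
      ((PFam.still hf hD).bdd_th2 zero_le_one (fun t x => (hB t x).2.1) t) _ y⟩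
  obtain ⟨S⟩ := exists_pstage hs F0 (e := ε 0) hc hb
    (fun t y => by simp only [F0, PFam.step, hh, PFam.still, one_mul]; ring)
    (fun t y => by
      simp only [F0, PFam.step, hh]
      rw [show (PFam.still hf hD).Ut t = fun _ => 0 from rfl,
        insStep_const ((PFam.still hf hD).pot t) zero_le_one]
      show _ = _
      simp only [PFam.still]
      ring) (r + 1) le_rfl
  set line : ℝ → Fin (r + 1) → ℝ := fun t i => p i + t * (p' i - p i)
  have hd : ∀ t ∈ Icc (0 : ℝ) 1, dT (incr p) δ t = incr (line t) := fun t ht => funext fun l => by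
    rw [hs.affine ht l, incr_line]
  have htop : ∀ t ∈ Icc (0 : ℝ) 1, F0.U t = (fun y => Real.log (topW f (line t) y)) ∧
      F0.U1 t = topD f (line t) := fun t ht => by
    have e : dT τ ε t 0 = 1 - line t (Fin.last r) := by
      rw [ht0.affine ht]; simp only [τ, ε, line]; ring
    simp only [F0, PFam.step, PFam.still, e]
    exact top_step hf (line t)
  have hx : ∀ t ∈ Icc (0 : ℝ) 1, potUp m (incr (line t)) (fun y => Real.log (topW f (line t) y))
      (r + 1) 0 = S.F.U t 0 := fun t ht => by
    rw [S.hU, hd t ht, (htop t ht).1]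
  refine ⟨((S.F.cont.comp (by fun_prop : Continuous fun t : ℝ => (t, (0 : ℝ)))).continuousOn).congr hx,
    fun t ht => ?_⟩
  have hv : S.F.Ut t 0 = -(∑ l, lmass m l * (p' l - p l) * conj f m (line t) l) / 2 := by
    have e1 : ∀ i, tUp δ (r + 1) i = p' i - p i := fun i => by
      have e : ∀ l : Fin (r + 1), (if l ≤ i then δ l else 0) =
          (if l ≤ i then incr p' l else 0) - if l ≤ i then incr p l else 0 := fun l => by
        split_ifs <;> simp [δ]
      simp only [tUp_full, e, Finset.sum_sub_distrib, sum_incr]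
    have e2 : (∑ l : Fin (r + 1), if r < (l : ℕ) + (r + 1) then δ l else 0) + ε 0 = 0 := by
      have : (∑ l : Fin (r + 1), if r < (l : ℕ) + (r + 1) then δ l else 0) =
          p' (Fin.last r) - p (Fin.last r) := by
        rw [← e1 (Fin.last r), tUp_full]
        exact Finset.sum_congr rfl fun l _ => if_congr (iff_of_true (by omega) (Fin.le_last l)) rfl rfl
      rw [this]; simp only [ε]; ring
    rw [S.slope t 0, e2]
    simp only [e1, conj, pairRoot_sq, hd t (Ioo_subset_Icc_self ht),
      (htop t (Ioo_subset_Icc_self ht)).1, (htop t (Ioo_subset_Icc_self ht)).2]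
    ring
  rw [← hv]
  refine (S.F.dt t ht 0).congr_of_eventuallyEq ?_
  filter_upwards [Ioo_mem_nhds ht.1 ht.2] with u hu using hx u (Ioo_subset_Icc_self hu)

/-- A bound on the increase of the functional from the bound on the pairings with monotone bounded
weights. -/
theorem pat_sub_le (hf : Smf f) (hD : ∀ x, |deriv f x| ≤ D) {m p p' : Fin (r + 1) → ℝ}
    (hp : LevelParam m p) (hp' : LevelParam m p') {E : ℝ}
    (hE : ∀ c : Fin (r + 1) → ℝ, Monotone c → (∀ l, 0 ≤ c l ∧ c l ≤ D ^ 2) →
      -E ≤ ∑ l, lmass m l * (p' l - p l) * c l) :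
    potUp m (incr p') (fun y => Real.log (topW f p' y)) (r + 1) 0 ≤
      potUp m (incr p) (fun y => Real.log (topW f p y)) (r + 1) 0 + E / 2 := by
  obtain ⟨hco, hd⟩ := pat_line hf hD hp hp'
  obtain ⟨t, ht, he⟩ := exists_hasDerivAt_eq_slope _ _ one_pos hco hd
  have e1 : (fun i => p i + 1 * (p' i - p i)) = p' := funext fun i => by ring
  have e0 : (fun i => p i + 0 * (p' i - p i)) = p := funext fun i => by ring
  simp only [e1, e0, sub_zero, div_one] at he
  obtain ⟨hmo, h0, hl, hb⟩ := conj_props hf (lp_line hp hp' (Ioo_subset_Icc_self ht)) hD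
  have := hE _ hmo fun l => ⟨h0.trans (hmo (Fin.zero_le l)), ((hmo (Fin.le_last l)).trans hl).trans hb⟩
  linarith

/-- The functional is Lipschitz in the path, weighted by the masses of the levels. -/
theorem pat_abs_sub (hf : Smf f) (hD : ∀ x, |deriv f x| ≤ D) {m p p' : Fin (r + 1) → ℝ}
    (hp : LevelParam m p) (hp' : LevelParam m p') :
    |potUp m (incr p') (fun y => Real.log (topW f p' y)) (r + 1) 0 -
        potUp m (incr p) (fun y => Real.log (topW f p y)) (r + 1) 0| ≤
      D ^ 2 / 2 * ∑ l, lmass m l * |p' l - p l| := by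
  have key : ∀ {a b : Fin (r + 1) → ℝ}, LevelParam m a → LevelParam m b →
      potUp m (incr b) (fun y => Real.log (topW f b y)) (r + 1) 0 ≤
        potUp m (incr a) (fun y => Real.log (topW f a y)) (r + 1) 0 +
          D ^ 2 / 2 * ∑ l, lmass m l * |b l - a l| := fun {a b} ha hb => by
    refine (pat_sub_le hf hD ha hb (E := D ^ 2 * ∑ l, lmass m l * |b l - a l|)
      fun c _ hc => ?_).trans (le_of_eq (by ring))
    rw [Finset.mul_sum, ← Finset.sum_neg_distrib]
    refine Finset.sum_le_sum fun l _ => ?_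
    have h1 := mul_le_mul_of_nonneg_left (hc l).2
      (mul_nonneg (lp_lmass_nonneg ha l) (abs_nonneg (b l - a l)))
    nlinarith [mul_nonneg (mul_nonneg (lp_lmass_nonneg ha l) (hc l).1)
      (by linarith [neg_abs_le (b l - a l)] : 0 ≤ b l - a l + |b l - a l|)]
  have h2 := key hp' hp
  simp only [abs_sub_comm (p _) (p' _)] at h2
  exact abs_le.2 ⟨by linarith, by linarith [key hp hp']⟩

/-- Tail sums bounded below bound the pairing with every monotone weight. -/
lemma abel_tails {a c : Fin (r + 1) → ℝ} {e : ℝ} (hc : Monotone c) (h0 : 0 ≤ c 0)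
    (ht : ∀ j, -e ≤ ∑ l : Fin (r + 1), if j ≤ l then a l else 0) :
    -e * c (Fin.last r) ≤ ∑ l, a l * c l := by
  have e1 : ∑ l, a l * c l =
      ∑ j, incr c j * ∑ l : Fin (r + 1), if j ≤ l then a l else 0 := by
    calc ∑ l, a l * c l = ∑ l, a l * ∑ j : Fin (r + 1), if j ≤ l then incr c j else 0 := by
          simp only [sum_incr]
      _ = ∑ l, ∑ j, incr c j * (if j ≤ l then a l else 0) := by
          refine Finset.sum_congr rfl fun l _ => ?_
          rw [Finset.mul_sum]
          exact Finset.sum_congr rfl fun j _ => by split_ifs <;> ring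
      _ = _ := by
          rw [Finset.sum_comm]
          simp only [Finset.mul_sum]
  have e2 : ∑ j, incr c j = c (Fin.last r) := by
    have h := sum_incr c (Fin.last r)
    simpa [Fin.le_last] using h
  rw [e1, ← e2, Finset.mul_sum]
  refine Finset.sum_le_sum fun j _ => ?_
  rw [mul_comm (-e)]
  exact mul_le_mul_of_nonneg_left (ht j) (incr_nonneg hc h0 j)

/-- Paths whose weighted tails increase, up to `e`, lower the functional up to `e D² / 2`. -/
theorem pat_le_of_tails (hf : Smf f) (hD : ∀ x, |deriv f x| ≤ D) {m p p' : Fin (r + 1) → ℝ}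
    (hp : LevelParam m p) (hp' : LevelParam m p') {e : ℝ} (he : 0 ≤ e)
    (ht : ∀ j, -e ≤ ∑ l : Fin (r + 1), if j ≤ l then lmass m l * (p' l - p l) else 0) :
    potUp m (incr p') (fun y => Real.log (topW f p' y)) (r + 1) 0 ≤
      potUp m (incr p) (fun y => Real.log (topW f p y)) (r + 1) 0 + e * D ^ 2 / 2 := by
  refine pat_sub_le hf hD hp hp' fun c hmo hc => ?_
  have h := abel_tails hmo (hc 0).1 ht
  nlinarith [mul_le_mul_of_nonneg_left (hc (Fin.last r)).2 he]

end Vale.Agent.P157F
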