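import Vale.Agent.P157F.Pat.Use

/-!
P157: the value of one pattern on finer levels, and its monotonicity in the tails of the overlap law.
-/

namespace Vale.Agent.P157F

open MeasureTheory Vale.Agent.P157 Vale.Agent.P157.Low Vale.Agent.P166F

variable {k k' n : ℕ} {f : ℝ → ℝ} {D : ℝ}

/-- An average over the step law is a sum over the levels. -/
lemma sum_stepLaw {m p : Fin (k + 1) → ℝ} (hm : Levels m) (hp : Path p) (g : ℝ → ℝ) :
    ∫ x, g x ∂stepLaw m p = ∑ l, lmass m l * g (p l) := by
  have hl := fun l => lp_lmass_nonneg (levelParam hm hp) l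
  rw [stepLaw, integral_finsetSum_measure fun l _ =>
    (integrable_dirac (by simp)).smul_measure ENNReal.ofReal_ne_top]
  exact Finset.sum_congr rfl fun l _ => by
    rw [integral_smul_measure, integral_dirac, ENNReal.toReal_ofReal (hl l), smul_eq_mul]

/-- Finer levels: a monotone surjection onto the old levels, keeping the exponent where a block
starts. -/
structure Finer (m : Fin (k + 1) → ℝ) (m' : Fin (n + 1) → ℝ) (σ : Fin (n + 1) → Fin (k + 1)) : Prop where
  mono : Monotone σ
  surj : Function.Surjective σ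
  start : ∀ i : Fin (n + 1), (∀ j, j < i → σ j ≠ σ i) → m' i = m (σ i)

namespace Finer

variable {m : Fin (k + 1) → ℝ} {m' : Fin (n + 1) → ℝ} {σ : Fin (n + 1) → Fin (k + 1)}

lemma zero (h : Finer m m' σ) : σ 0 = 0 := by
  obtain ⟨i, hi⟩ := h.surj 0
  exact le_antisymm (hi ▸ h.mono (Fin.zero_le i)) (Fin.zero_le _)

lemma last (h : Finer m m' σ) : σ (Fin.last n) = Fin.last k := by
  obtain ⟨i, hi⟩ := h.surj (Fin.last k)
  exact le_antisymm (Fin.le_last _) (hi ▸ h.mono (Fin.le_last i))

/-- The number of old levels begun before position `i`. -/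
def cnt (σ : Fin (n + 1) → Fin (k + 1)) (i : ℕ) : ℕ :=
  if i = 0 then 0 else if h : i ≤ n + 1 then (σ ⟨i - 1, by omega⟩ : ℕ) + 1 else k + 1

lemma cnt_succ (i : Fin (n + 1)) : cnt σ ((i : ℕ) + 1) = (σ i : ℕ) + 1 := by
  simp only [cnt, Nat.succ_ne_zero, if_false]
  rw [dif_pos (by omega)]
  simp

lemma cnt_cases (h : Finer m m' σ) (i : Fin (n + 1)) :
    (cnt σ i = σ i ∧ m' i = m (σ i) ∧
      ∀ a : Fin (k + 1) → ℝ, incr (fun l => a (σ l)) i = incr a (σ i)) ∨
    (cnt σ i = (σ i : ℕ) + 1 ∧ ∀ a : Fin (k + 1) → ℝ, incr (fun l => a (σ l)) i = 0) := by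
  rcases Nat.eq_zero_or_pos (i : ℕ) with h0 | h0
  · have hi : i = 0 := Fin.ext h0
    subst hi
    exact Or.inl ⟨by simp [cnt, h.zero], h.start 0 fun j hj => absurd hj (Nat.not_lt_zero _),
      fun a => by simp [incr, h.zero]⟩
  · set i' : Fin (n + 1) := ⟨(i : ℕ) - 1, by omega⟩ with hi'
    have hle : σ i' ≤ σ i := h.mono (Fin.le_def.2 (by simp only [hi']; omega))
    have hc : cnt σ i = (σ i' : ℕ) + 1 := by
      simp [cnt, Nat.pos_iff_ne_zero.1 h0, show (i : ℕ) ≤ n + 1 by omega, hi']
    rcases eq_or_lt_of_le hle with he | hl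
    · exact Or.inr ⟨by rw [hc, he], fun a => by
        simp only [incr, Nat.pos_iff_ne_zero.1 h0, dite_false]
        rw [← hi', he, sub_self]⟩
    · have hs : (σ i' : ℕ) + 1 = σ i := by
        refine le_antisymm (Nat.succ_le_of_lt hl) (not_lt.1 fun hlt => ?_)
        obtain ⟨j, hj⟩ := h.surj ⟨(σ i' : ℕ) + 1, by omega⟩
        rcases le_or_gt j i' with hji | hji
        · have := Fin.le_def.1 (h.mono hji)
          rw [hj] at this
          simp at this
        · have hij : i ≤ j := Fin.le_def.2 (by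
            have := Fin.lt_def.1 hji
            simp only [hi'] at this
            omega)
          have := Fin.le_def.1 (h.mono hij)
          rw [hj] at this
          simp only at this
          omega
      refine Or.inl ⟨by rw [hc, hs], h.start i fun j hj => ne_of_lt (lt_of_le_of_lt
        (h.mono (Fin.le_def.2 (by simp only [hi']; have := Fin.lt_def.1 hj; omega))) hl), fun a => ?_⟩
      simp only [incr, Nat.pos_iff_ne_zero.1 h0, dite_false, dif_neg (show (σ i : ℕ) ≠ 0 by omega)]
      congr 2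
      exact congrArg σ hi'.symm |>.trans (Fin.ext (by simp; omega))

/-- The nested potential does not see levels without increment. -/
lemma potUp_eq (h : Finer m m' σ) (p : Fin (k + 1) → ℝ) (u : ℝ → ℝ) :
    ∀ i, i ≤ n + 1 → potUp m' (incr fun l => p (σ l)) u (n + 1 - i) =
      potUp m (incr p) u (k + 1 - cnt σ i) := by
  intro i hi
  induction hd : n + 1 - i generalizing i with
  | zero =>
    have : i = n + 1 := by omega
    subst this
    rw [show cnt σ (n + 1) = k + 1 by
      have := cnt_succ (σ := σ) (Fin.last n)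
      rwa [h.last] at this]
    simp [potUp]
  | succ d ih =>
    have hin : i ≤ n := by omega
    set j : Fin (n + 1) := ⟨i, by omega⟩ with hj
    have hk : cnt σ (i + 1) = (σ j : ℕ) + 1 := cnt_succ (σ := σ) j
    have hIH := ih (i + 1) (by omega) (by omega)
    rw [hk] at hIH
    have hjj : (⟨n - d, by omega⟩ : Fin (n + 1)) = j := Fin.ext (by simp only [hj]; omega)
    rw [potUp, dif_pos (by omega : d ≤ n)]
    simp only [hjj, hIH]
    rcases h.cnt_cases j with ⟨hc, he, ha⟩ | ⟨hc, ha⟩
    · have hσ : (σ j : ℕ) ≤ k := Fin.is_le _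
      rw [show cnt σ i = σ j from hc, show k + 1 - (σ j : ℕ) = (k - σ j) + 1 by omega,
        show k + 1 - ((σ j : ℕ) + 1) = k - σ j by omega]
      conv_rhs => rw [potUp, dif_pos (by omega : k - (σ j : ℕ) ≤ k)]
      have hσj : (⟨k - (k - (σ j : ℕ)), by omega⟩ : Fin (k + 1)) = σ j := Fin.ext (by simp; omega)
      simp only [hσj, he, ha p]
    · rw [show cnt σ i = (σ j : ℕ) + 1 from hc, ha p]
      split_ifs with hz
      · rw [heat_zero]
      · funext y
        rw [heat_zero, Real.log_exp]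
        exact mul_div_cancel_left₀ _ hz

lemma patVal_eq (h : Finer m m' σ) (p : Fin (k + 1) → ℝ) :
    patVal f m' (fun l => p (σ l)) = patVal f m p := by
  have e := h.potUp_eq p (topLog f p) 0 (Nat.zero_le _)
  simp only [cnt, if_true, Nat.sub_zero] at e
  have ht : topLog f (fun l => p (σ l)) = topLog f p := by
    funext y; simp only [topLog, topW, h.last]
  simp only [patVal, ht, e]

/-- Averages over the levels do not see the refinement. -/
lemma sum_eq (h : Finer m m' σ) (hm : Levels m) (hm' : Levels m') (a : Fin (k + 1) → ℝ) :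
    ∑ i, lmass m' i * a (σ i) = ∑ l, lmass m l * a l := by
  have abel : ∀ {r : ℕ} (μ b : Fin (r + 1) → ℝ), μ 0 = 0 →
      ∑ l, lmass μ l * b l = b (Fin.last r) - ∑ l, μ l * incr b l := by
    intro r μ b h0
    rw [Fin.sum_univ_castSucc, Fin.sum_univ_succ (fun l => μ l * incr b l), h0]
    simp only [lmass, incr_succ, Fin.val_castSucc, Fin.is_lt, dite_true, Fin.val_last, lt_self_iff_false,
      dite_false, mul_sub, sub_mul, one_mul, Finset.sum_sub_distrib, zero_mul, zero_add]
    have e : ∀ l : Fin r, (⟨(l : ℕ) + 1, by omega⟩ : Fin (r + 1)) = l.succ := fun l => rfl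
    simp only [e]
    have := Fin.sum_univ_succ fun l => μ l * b l
    have := Fin.sum_univ_castSucc fun l => μ l * b l
    rw [h0] at *
    linarith [zero_mul (b 0)]
  rw [abel m' (fun i => a (σ i)) hm'.zero, abel m a hm.zero, h.last]
  congr 1
  have key : ∀ i, i ≤ n + 1 → (∑ l : Fin (n + 1), if i ≤ (l : ℕ) then m' l * incr (fun l => a (σ l)) l
      else 0) = ∑ l : Fin (k + 1), if cnt σ i ≤ (l : ℕ) then m l * incr a l else 0 := by
    intro i hi
    induction hd : n + 1 - i generalizing i with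
    | zero =>
      have : i = n + 1 := by omega
      subst this
      rw [show cnt σ (n + 1) = k + 1 by
        have := cnt_succ (σ := σ) (Fin.last n)
        rwa [h.last] at this]
      simp only [show ∀ l : Fin (n + 1), ¬ n + 1 ≤ (l : ℕ) from fun l => by omega,
        show ∀ l : Fin (k + 1), ¬ k + 1 ≤ (l : ℕ) from fun l => by omega, if_false, Finset.sum_const_zero]
    | succ d ih =>
      set j : Fin (n + 1) := ⟨i, by omega⟩ with hj
      have e : ∀ {r : ℕ} (j : Fin (r + 1)) (φ : Fin (r + 1) → ℝ),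
          (∑ l : Fin (r + 1), if (j : ℕ) ≤ (l : ℕ) then φ l else 0) =
            φ j + ∑ l : Fin (r + 1), if (j : ℕ) + 1 ≤ (l : ℕ) then φ l else 0 := fun {r} j φ => by
        have : ∀ l : Fin (r + 1), (if (j : ℕ) ≤ (l : ℕ) then φ l else 0) =
            (if l = j then φ j else 0) + if (j : ℕ) + 1 ≤ (l : ℕ) then φ l else 0 := fun l => by
          rcases eq_or_ne l j with rfl | hne
          · simp
          · have : (l : ℕ) ≠ j := fun hh => hne (Fin.ext hh)
            rw [if_neg hne, zero_add]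
            exact if_congr (by omega) rfl rfl
        simp only [this, Finset.sum_add_distrib, Finset.sum_ite_eq', Finset.mem_univ, if_true]
      have hk : cnt σ (i + 1) = (σ j : ℕ) + 1 := cnt_succ (σ := σ) j
      rw [show i = (j : ℕ) from rfl, e j, ih (i + 1) (by omega) (by omega), hk]
      rcases h.cnt_cases j with ⟨hc, he, ha⟩ | ⟨hc, ha⟩
      · rw [hc, e (σ j), he, ha a]
      · rw [hc, ha a, mul_zero, zero_add]
  simpa [cnt] using key 0 (Nat.zero_le _)

end Finer

/-- Strict levels refining two given ones. -/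
lemma exists_common {m : Fin (k + 1) → ℝ} (hm : Levels m) {m' : Fin (k' + 1) → ℝ} (hm' : Levels m') :
    ∃ (n : ℕ) (M : Fin (n + 1) → ℝ) (σ : Fin (n + 1) → Fin (k + 1)) (σ' : Fin (n + 1) → Fin (k' + 1)),
      Levels M ∧ Finer m M σ ∧ Finer m' M σ' := by
  classical
  set S := Finset.univ.image m ∪ Finset.univ.image m'
  have hS : 0 < S.card := Finset.card_pos.2 ⟨m 0, by simp [S]⟩
  obtain ⟨n, hn⟩ := Nat.exists_eq_add_one.2 hS
  set M : Fin (n + 1) → ℝ := fun i => S.orderEmbOfFin hn i
  have hMm : StrictMono M := (S.orderEmbOfFin hn).strictMono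
  have hmem : ∀ i, M i ∈ S := fun i => S.orderEmbOfFin_mem hn i
  have hran : ∀ x ∈ S, ∃ i, M i = x := fun x hx => by
    have : x ∈ Set.range (S.orderEmbOfFin hn) := by rwa [Finset.range_orderEmbOfFin]
    exact this
  have mk : ∀ {r : ℕ} {μ : Fin (r + 1) → ℝ}, Levels μ → (∀ l, μ l ∈ S) →
      (∀ i, 0 ≤ M i) → ∃ σ, Finer μ M σ := by
    intro r μ hμ hsub hnn
    have hne : ∀ i, (Finset.univ.filter fun l => μ l ≤ M i).Nonempty := fun i =>
      ⟨0, by simp [hμ.zero, hnn i]⟩
    set σ : Fin (n + 1) → Fin (r + 1) := fun i => (Finset.univ.filter fun l => μ l ≤ M i).max' (hne i)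
    have hspec : ∀ i, μ (σ i) ≤ M i := fun i => (Finset.mem_filter.1 (Finset.max'_mem _ (hne i))).2
    have hmax : ∀ i l, μ l ≤ M i → l ≤ σ i := fun i l hl => Finset.le_max' _ _ (by simp [hl])
    have hex : ∀ l i, M i = μ l → σ i = l := fun l i hi =>
      le_antisymm (hμ.strict.le_iff_le.1 (hi ▸ hspec i)) (hmax i l hi.ge)
    refine ⟨σ, fun i j hij => hmax j _ ((hspec i).trans (hMm.monotone hij)), fun l => ?_, fun i hi => ?_⟩
    · obtain ⟨i, hi⟩ := hran _ (hsub l)
      exact ⟨i, hex l i hi⟩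
    · obtain ⟨j, hj⟩ := hran _ (hsub (σ i))
      have hji : j ≤ i := hMm.le_iff_le.1 (hj ▸ hspec i)
      rcases eq_or_lt_of_le hji with rfl | hlt
      · exact hj
      · exact absurd (hex _ j hj) (hi j hlt)
  have hnn : ∀ i, 0 ≤ M i ∧ M i < 1 := fun i => by
    have := hmem i
    simp only [S, Finset.mem_union, Finset.mem_image, Finset.mem_univ, true_and] at this
    rcases this with ⟨l, hl⟩ | ⟨l, hl⟩ <;> rw [← hl]
    · exact ⟨hm.zero ▸ hm.strict.monotone (Fin.zero_le l), hm.ltOne l⟩
    · exact ⟨hm'.zero ▸ hm'.strict.monotone (Fin.zero_le l), hm'.ltOne l⟩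
  obtain ⟨σ, hσ⟩ := mk hm (fun l => by simp [S]) fun i => (hnn i).1
  obtain ⟨σ', hσ'⟩ := mk hm' (fun l => by simp [S]) fun i => (hnn i).1
  obtain ⟨i₀, hi₀⟩ := hran (m 0) (by simp [S])
  refine ⟨n, M, σ, σ', ⟨le_antisymm ?_ (hnn 0).1, hMm, fun i => (hnn i).2⟩, hσ, hσ'⟩
  exact (hMm.monotone (Fin.zero_le i₀)).trans (hi₀.le.trans hm.zero.le)

/-- Overlap laws with larger tails have smaller values. -/
theorem patVal_le_of_tails (hs : Smf f) (hD : ∀ x, |deriv f x| ≤ D) {m p : Fin (k + 1) → ℝ}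
    (hm : Levels m) (hp : Path p) {m' p' : Fin (k' + 1) → ℝ} (hm' : Levels m') (hp' : Path p')
    {e : ℝ} (he : 0 ≤ e)
    (h : ∀ c ∈ Set.Icc (0 : ℝ) 1, (∫ x, max c x ∂stepLaw m p) - e ≤ ∫ x, max c x ∂stepLaw m' p') :
    patVal f m' p' ≤ patVal f m p + D ^ 2 * e := by
  obtain ⟨n, M, σ, σ', hM, hσ, hσ'⟩ := exists_common hm hm'
  set q := fun i => p (σ i)
  set q' := fun i => p' (σ' i)
  have hq : Path q := ⟨hp.mono.comp hσ.mono, fun i => hp.nonneg _, fun i => hp.ltOne _⟩
  have hq' : Path q' := ⟨hp'.mono.comp hσ'.mono, fun i => hp'.nonneg _, fun i => hp'.ltOne _⟩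
  have hl := fun l => lp_lmass_nonneg (levelParam hM hq) l
  rw [← hσ.patVal_eq p, ← hσ'.patVal_eq p']
  refine (patVal_le_of_sums hs hD hM hq hq' he fun j => ?_).trans
    (add_le_add le_rfl (by nlinarith [mul_nonneg (sq_nonneg D) he]))
  have h' := h (q' j) ⟨hq'.nonneg j, (hq'.ltOne j).le⟩
  rw [sum_stepLaw hm hp, sum_stepLaw hm' hp', ← hσ.sum_eq hm hM (fun l => max (q' j) (p l)),
    ← hσ'.sum_eq hm' hM (fun l => max (q' j) (p' l))] at h'
  rw [Finset.sum_filter]
  have key : ∀ i, lmass M i * max (q' j) (q' i) - lmass M i * max (q' j) (q i) ≤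
      if j ≤ i then lmass M i * (q' i - q i) else 0 := fun i => by
    rw [← mul_sub]
    split_ifs with hji
    · exact mul_le_mul_of_nonneg_left (by
        rw [max_eq_right (hq'.mono hji)]; linarith [le_max_right (q' j) (q i)]) (hl i)
    · refine mul_nonpos_of_nonneg_of_nonpos (hl i) ?_
      rw [max_eq_left (hq'.mono (le_of_lt (not_le.1 hji)))]
      linarith [le_max_left (q' j) (q i)]
  have hsum := Finset.sum_le_sum (s := Finset.univ) fun i _ => key i
  rw [Finset.sum_sub_distrib] at hsum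
  linarith

end Vale.Agent.P157F
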