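import Vale.Agent.P157F.Defs
import Vale.Agent.P157F.Pat.Line

/-!
P157: the consequences of the line derivative for paths on strict levels.
-/

namespace Vale.Agent.P157F

open MeasureTheory Vale.Agent.P157 Vale.Agent.P157.Low Vale.Agent.P166F

variable {k : ℕ} {f : ℝ → ℝ} {D : ℝ} {m p p' : Fin (k + 1) → ℝ}

lemma levelParam (hm : Levels m) (hp : Path p) : LevelParam m p where
  zero := hm.zero
  pos j hj := ⟨hm.zero ▸ hm.strict (Fin.pos_iff_ne_zero.2 hj), (hm.ltOne j).le⟩
  monom := hm.strict.monotone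
  monoq := hp.mono
  rangeq j := ⟨hp.nonneg j, hp.ltOne j⟩

/-- The value of one pattern is Lipschitz in the overlaps, in mean over the levels. -/
theorem abs_patVal_sub_le (hs : Smf f) (hD : ∀ x, |deriv f x| ≤ D) (hm : Levels m) (hp : Path p)
    (hp' : Path p') :
    |patVal f m p' - patVal f m p| ≤ D ^ 2 / 2 * ∑ l, lmass m l * |p' l - p l| :=
  pat_abs_sub hs hD (levelParam hm hp) (levelParam hm hp')

/-- Larger upper tails of the overlaps lower the value of one pattern. -/
theorem patVal_le_of_sums (hs : Smf f) (hD : ∀ x, |deriv f x| ≤ D) (hm : Levels m) (hp : Path p)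
    (hp' : Path p') {e : ℝ} (he : 0 ≤ e)
    (h : ∀ j, -e ≤ ∑ l ∈ Finset.univ.filter (fun l => j ≤ l), lmass m l * (p' l - p l)) :
    patVal f m p' ≤ patVal f m p + D ^ 2 / 2 * e := by
  have h2 := pat_le_of_tails hs hD (levelParam hm hp) (levelParam hm hp') he fun j => by
    simpa only [Finset.sum_filter] using h j
  refine h2.trans (le_of_eq ?_)
  show patVal f m p + e * D ^ 2 / 2 = _
  ring

end Vale.Agent.P157F
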